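import Vale.Agent.P066.Theta.Defs

/-!
# The completed quantum torus is a ring

Ring and algebra structure on `QSeries B`, series with prescribed support, units.
-/

set_option autoImplicit false

open Finset

namespace Vale.Agent.P066.Theta

noncomputable section

theorem v_ne_zero : v ≠ 0 := RatFunc.X_ne_zero

variable {r : ℕ}

/-! ### the form -/

theorem omega_add_left (B : Matrix (Fin r) (Fin r) ℤ) (x x' y : Fin r → ℤ) :
    omega B (x + x') y = omega B x y + omega B x' y := by
  simp only [omega, Pi.add_apply, add_mul, sum_add_distrib]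

theorem omega_add_right (B : Matrix (Fin r) (Fin r) ℤ) (x y y' : Fin r → ℤ) :
    omega B x (y + y') = omega B x y + omega B x y' := by
  simp only [omega, Pi.add_apply, mul_add, sum_add_distrib]

@[simp] theorem omega_zero_left (B : Matrix (Fin r) (Fin r) ℤ) (y : Fin r → ℤ) :
    omega B 0 y = 0 := by
  simp [omega]

@[simp] theorem omega_zero_right (B : Matrix (Fin r) (Fin r) ℤ) (x : Fin r → ℤ) :
    omega B x 0 = 0 := by
  simp [omega]

theorem omega_swap {B : Matrix (Fin r) (Fin r) ℤ} (hB : B.transpose = -B) (x y : Fin r → ℤ) :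
    omega B x y = - omega B y x := by
  have h : ∀ i j, B i j = - B j i := by
    intro i j
    have := congrFun (congrFun hB j) i
    simpa using this
  unfold omega
  rw [sum_comm, ← sum_neg_distrib]
  refine sum_congr rfl fun i _ => ?_
  rw [← sum_neg_distrib]
  refine sum_congr rfl fun j _ => ?_
  rw [h j i]
  ring

theorem omega_self {B : Matrix (Fin r) (Fin r) ℤ} (hB : B.transpose = -B) (x : Fin r → ℤ) :
    omega B x x = 0 := by
  have := omega_swap hB x x
  omega

@[simp] theorem toZ_zero : toZ (0 : Fin r →₀ ℕ) = 0 := by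
  funext i
  simp [toZ]

theorem toZ_add (a b : Fin r →₀ ℕ) : toZ (a + b) = toZ a + toZ b := by
  funext i
  simp [toZ]

@[simp] theorem wt_zero (Q : Fin r → ℤ) : wt Q 0 = 0 := by
  simp [wt]

theorem wt_add (Q : Fin r → ℤ) (a b : Fin r →₀ ℕ) : wt Q (a + b) = wt Q a + wt Q b := by
  simp [wt, add_mul, sum_add_distrib]

theorem wt_add_left (Q Q' : Fin r → ℤ) (a : Fin r →₀ ℕ) : wt (Q + Q') a = wt Q a + wt Q' a := by
  simp [wt, mul_add, sum_add_distrib]

@[simp] theorem wt_zero_left (a : Fin r →₀ ℕ) : wt (0 : Fin r → ℤ) a = 0 := by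
  simp [wt]

namespace QSeries

variable {B : Matrix (Fin r) (Fin r) ℤ}

@[ext] theorem ext {f g : QSeries B} (h : ∀ γ, f γ = g γ) : f = g := funext h

theorem mul_apply (f g : QSeries B) (γ : Fin r →₀ ℕ) :
    (f * g) γ = ∑ p ∈ antidiagonal γ, v ^ omega B (toZ p.1) (toZ p.2) * f p.1 * g p.2 := rfl

theorem one_apply (γ : Fin r →₀ ℕ) : (1 : QSeries B) γ = if γ = 0 then 1 else 0 := rfl

@[simp] theorem one_zero : (1 : QSeries B) 0 = 1 := by simp [one_apply]

@[simp] theorem zero_apply (γ : Fin r →₀ ℕ) : (0 : QSeries B) γ = 0 := rfl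

@[simp] theorem add_apply (f g : QSeries B) (γ : Fin r →₀ ℕ) : (f + g) γ = f γ + g γ := rfl

@[simp] theorem neg_apply (f : QSeries B) (γ : Fin r →₀ ℕ) : (-f) γ = - f γ := rfl

@[simp] theorem sub_apply (f g : QSeries B) (γ : Fin r →₀ ℕ) : (f - g) γ = f γ - g γ := rfl

@[simp] theorem smul_apply (c : K) (f : QSeries B) (γ : Fin r →₀ ℕ) : (c • f) γ = c * f γ := rfl

private theorem mul_assoc' (f g h : QSeries B) : f * g * h = f * (g * h) := by
  ext n
  simp only [mul_apply, Finset.sum_mul, Finset.mul_sum, Finset.sum_sigma']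
  apply Finset.sum_nbij' (fun ⟨⟨_i, j⟩, ⟨k, l⟩⟩ ↦ ⟨(k, l + j), (l, j)⟩)
    (fun ⟨⟨i, _j⟩, ⟨k, l⟩⟩ ↦ ⟨(i + k, l), (i, k)⟩)
  · aesop (add simp [add_assoc])
  · aesop (add simp [add_assoc])
  · aesop (add simp [add_assoc])
  · aesop (add simp [add_assoc])
  · rintro ⟨⟨i, j⟩, ⟨k, l⟩⟩ hm
    simp only [mem_sigma, HasAntidiagonal.mem_antidiagonal] at hm
    obtain ⟨-, hkl⟩ := hm
    subst hkl
    show v ^ omega B (toZ (k + l)) (toZ j) * (v ^ omega B (toZ k) (toZ l) * f k * g l) * h j =
      v ^ omega B (toZ k) (toZ (l + j)) * f k * (v ^ omega B (toZ l) (toZ j) * g l * h j)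
    simp only [toZ_add, omega_add_left, omega_add_right]
    rw [zpow_add₀ v_ne_zero, zpow_add₀ v_ne_zero]
    ring

private theorem one_mul' (f : QSeries B) : 1 * f = f := by
  ext n
  rw [mul_apply, Finset.sum_eq_single (0, n)]
  · show v ^ omega B (toZ 0) (toZ n) * (if (0 : Fin r →₀ ℕ) = 0 then (1 : K) else 0) * f n = f n
    simp
  · rintro ⟨a, b⟩ hab hne
    rw [HasAntidiagonal.mem_antidiagonal] at hab
    have : a ≠ 0 := by
      rintro rfl
      apply hne
      simp at hab
      rw [hab]
    simp [one_apply, this]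
  · intro h
    simp at h

private theorem mul_one' (f : QSeries B) : f * 1 = f := by
  ext n
  rw [mul_apply, Finset.sum_eq_single (n, 0)]
  · show v ^ omega B (toZ n) (toZ 0) * f n * (if (0 : Fin r →₀ ℕ) = 0 then (1 : K) else 0) = f n
    simp
  · rintro ⟨a, b⟩ hab hne
    rw [HasAntidiagonal.mem_antidiagonal] at hab
    have : b ≠ 0 := by
      rintro rfl
      apply hne
      simp at hab
      rw [hab]
    simp [one_apply, this]
  · intro h
    simp at h

instance : Ring (QSeries B) :=
  { (inferInstance : AddCommGroup (QSeries B)) with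
    one := 1
    mul := (· * ·)
    left_distrib := fun a b c => by
      ext n
      simp only [mul_apply, add_apply, mul_add, sum_add_distrib]
    right_distrib := fun a b c => by
      ext n
      simp only [mul_apply, add_apply, mul_add, add_mul, sum_add_distrib]
    zero_mul := fun a => by
      ext n
      simp [mul_apply]
    mul_zero := fun a => by
      ext n
      simp [mul_apply]
    mul_assoc := mul_assoc'
    one_mul := one_mul'
    mul_one := mul_one' }

instance : Algebra K (QSeries B) :=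
  Algebra.ofModule
    (fun c f g => by
      ext n
      simp only [mul_apply, smul_apply, Finset.mul_sum]
      refine sum_congr rfl fun p _ => ?_
      ring)
    (fun c f g => by
      ext n
      simp only [mul_apply, smul_apply, Finset.mul_sum]
      refine sum_congr rfl fun p _ => ?_
      ring)

@[simp] theorem mul_zero_apply (f g : QSeries B) : (f * g) 0 = f 0 * g 0 := by
  rw [mul_apply]
  simp

theorem sum_apply {ι : Type*} (s : Finset ι) (f : ι → QSeries B) (γ : Fin r →₀ ℕ) :
    (∑ i ∈ s, f i) γ = ∑ i ∈ s, f i γ := by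
  classical
  induction s using Finset.induction_on with
  | empty => simp
  | insert a s ha ih => rw [sum_insert ha, sum_insert ha, add_apply, ih]

/-- A coefficient of a product vanishes if no decomposition meets both supports. -/
theorem mul_apply_eq_zero {f g : QSeries B} {γ : Fin r →₀ ℕ}
    (h : ∀ a b, a + b = γ → f a = 0 ∨ g b = 0) : (f * g) γ = 0 := by
  rw [mul_apply]
  apply sum_eq_zero
  rintro ⟨a, b⟩ hab
  rw [HasAntidiagonal.mem_antidiagonal] at hab
  show v ^ omega B (toZ a) (toZ b) * f a * g b = 0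
  rcases h a b hab with h | h
  · rw [h]
    ring
  · rw [h]
    ring

/-- Split off the two extreme terms of a product. -/
theorem mul_apply_extreme (f g : QSeries B) {γ : Fin r →₀ ℕ} (hγ : γ ≠ 0) :
    (f * g) γ = f 0 * g γ + f γ * g 0 +
      ∑ p ∈ (antidiagonal γ).filter (fun p => p.1 ≠ 0 ∧ p.2 ≠ 0),
        v ^ omega B (toZ p.1) (toZ p.2) * f p.1 * g p.2 := by
  rw [mul_apply, ← sum_filter_add_sum_filter_not (antidiagonal γ) (fun p => p.1 ≠ 0 ∧ p.2 ≠ 0),
    add_comm]
  congr 1
  have h : (antidiagonal γ).filter (fun p => ¬ (p.1 ≠ 0 ∧ p.2 ≠ 0)) =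
      {((0 : Fin r →₀ ℕ), γ), (γ, (0 : Fin r →₀ ℕ))} := by
    ext ⟨a, b⟩
    simp only [mem_filter, HasAntidiagonal.mem_antidiagonal, mem_insert, mem_singleton, Prod.mk.injEq]
    constructor
    · rintro ⟨hab, hn⟩
      by_cases ha : a = 0
      · left
        subst ha
        simp at hab
        exact ⟨rfl, hab⟩
      · right
        have hb : b = 0 := by
          by_contra hb
          exact hn ⟨ha, hb⟩
        subst hb
        simp at hab
        exact ⟨hab, rfl⟩
    · rintro (⟨rfl, rfl⟩ | ⟨rfl, rfl⟩) <;> simp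
  rw [h, sum_pair]
  · simp
  · intro h
    rw [Prod.mk.injEq] at h
    exact hγ h.1.symm

/-! ### recursion -/

theorem exists_fix {ι X : Type*} [Preorder ι] [WellFoundedLT ι] [Nonempty X]
    (G : (ι → X) → ι → X)
    (hG : ∀ f g γ, (∀ δ, δ < γ → f δ = g δ) → G f γ = G g γ) : ∃ f : ι → X, ∀ γ, f γ = G f γ := by
  classical
  let d : X := Classical.arbitrary X
  let F : ∀ γ : ι, (∀ δ, δ < γ → X) → X :=
    fun γ rec => G (fun δ => if h : δ < γ then rec δ h else d) γ
  have wf : WellFounded (fun a b : ι => a < b) := wellFounded_lt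
  refine ⟨wf.fix F, fun γ => ?_⟩
  rw [wf.fix_eq]
  apply hG
  intro δ hδ
  simp [hδ]

theorem lt_of_antidiagonal_fst {a b γ : Fin r →₀ ℕ} (h : a + b = γ) (hb : b ≠ 0) : a < γ := by
  rw [← h]
  exact lt_add_of_pos_right a (pos_iff_ne_zero.2 hb)

theorem lt_of_antidiagonal_snd {a b γ : Fin r →₀ ℕ} (h : a + b = γ) (ha : a ≠ 0) : b < γ := by
  rw [← h]
  exact lt_add_of_pos_left b (pos_iff_ne_zero.2 ha)

/-! ### units -/

theorem exists_leftInv (f : QSeries B) (h0 : f 0 ≠ 0) : ∃ g : QSeries B, g * f = 1 := by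
  classical
  obtain ⟨(g : QSeries B), hg⟩ := exists_fix (ι := Fin r →₀ ℕ) (X := K)
    (fun g γ => if γ = 0 then (f 0)⁻¹ else
      -(f 0)⁻¹ * ∑ p ∈ (antidiagonal γ).filter (fun p => p.2 ≠ 0),
        v ^ omega B (toZ p.1) (toZ p.2) * g p.1 * f p.2) (by
      intro g g' γ h
      by_cases hγ : γ = 0
      · simp [hγ]
      · simp only [hγ, if_false]
        congr 1
        refine sum_congr rfl fun p hp => ?_
        rw [mem_filter, HasAntidiagonal.mem_antidiagonal] at hp
        rw [h p.1 (lt_of_antidiagonal_fst hp.1 hp.2)])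
  refine ⟨g, ?_⟩
  ext γ
  by_cases hγ : γ = 0
  · subst hγ
    have h1 := hg 0
    simp only [if_true] at h1
    rw [mul_zero_apply, h1, one_zero, inv_mul_cancel₀ h0]
  · have h1 := hg γ
    simp only [hγ, if_false] at h1
    rw [mul_apply, ← sum_filter_add_sum_filter_not (antidiagonal γ) (fun p => p.2 ≠ 0)]
    have h2 : ∑ p ∈ (antidiagonal γ).filter (fun p => ¬ p.2 ≠ 0),
        v ^ omega B (toZ p.1) (toZ p.2) * g p.1 * f p.2 = g γ * f 0 := by
      rw [sum_eq_single (γ, 0)]
      · simp
      · rintro ⟨a, b⟩ hab hne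
        exfalso
        simp only [mem_filter, HasAntidiagonal.mem_antidiagonal, not_not] at hab
        apply hne
        obtain ⟨h3, rfl⟩ := hab
        simp at h3
        rw [h3]
      · intro h
        simp at h
    rw [h2, h1, one_apply, if_neg hγ]
    field_simp
    ring

theorem exists_rightInv (f : QSeries B) (h0 : f 0 ≠ 0) : ∃ g : QSeries B, f * g = 1 := by
  obtain ⟨g, hg⟩ := exists_leftInv f h0
  have hg0 : g 0 ≠ 0 := by
    intro h
    have := congrFun hg 0
    rw [mul_zero_apply, h, one_zero, zero_mul] at this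
    exact zero_ne_one this
  obtain ⟨f', hf'⟩ := exists_leftInv g hg0
  have : f' = f := by
    calc f' = f' * (g * f) := by rw [hg, mul_one]
      _ = f := by rw [← mul_assoc, hf', one_mul]
  exact ⟨g, by rw [← this, hf']⟩

theorem isUnit_iff {f : QSeries B} : IsUnit f ↔ f 0 ≠ 0 := by
  constructor
  · rintro ⟨u, rfl⟩ h
    have : ((u : QSeries B) * (↑(u⁻¹) : QSeries B)) 0 = 1 := by rw [Units.mul_inv, one_zero]
    rw [mul_zero_apply, h, zero_mul] at this
    exact zero_ne_one this
  · intro h
    obtain ⟨g, hg⟩ := exists_leftInv f h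
    obtain ⟨g', hg'⟩ := exists_rightInv f h
    have : g = g' := by
      calc g = g * (f * g') := by rw [hg', mul_one]
        _ = g' := by rw [← mul_assoc, hg, one_mul]
    exact ⟨⟨f, g, by rw [this, hg'], hg⟩, rfl⟩

theorem isUnit_of_one {f : QSeries B} (h : f 0 = 1) : IsUnit f :=
  isUnit_iff.2 (by rw [h]; exact one_ne_zero)

theorem inverse_zero_apply {f : QSeries B} (h : f 0 = 1) : (Ring.inverse f) 0 = 1 := by
  have h1 := Ring.mul_inverse_cancel f (isUnit_of_one h)
  have h2 := congrFun h1 0
  rw [mul_zero_apply, h, one_mul, one_zero] at h2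
  exact h2

/-! ### supports -/

/-- The series supported on a submonoid of `ℕ^r`. -/
def supp (S : AddSubmonoid (Fin r →₀ ℕ)) : Subalgebra K (QSeries B) where
  carrier := {f | ∀ γ, f γ ≠ 0 → γ ∈ S}
  mul_mem' := by
    intro f g hf hg γ h
    by_contra hγ
    apply h
    apply mul_apply_eq_zero
    intro a b hab
    by_contra hc
    push Not at hc
    exact hγ (hab ▸ S.add_mem (hf a hc.1) (hg b hc.2))
  add_mem' := by
    intro f g hf hg γ h
    by_cases h1 : f γ = 0
    · refine hg γ fun h2 => h ?_
      rw [add_apply, h1, h2, add_zero]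
    · exact hf γ h1
  algebraMap_mem' := by
    intro c γ h
    rw [Algebra.algebraMap_eq_smul_one, smul_apply, one_apply] at h
    by_cases hγ : γ = 0
    · rw [hγ]
      exact S.zero_mem
    · simp [hγ] at h

theorem mem_supp {S : AddSubmonoid (Fin r →₀ ℕ)} {f : QSeries B} :
    f ∈ supp (B := B) S ↔ ∀ γ, f γ ≠ 0 → γ ∈ S := Iff.rfl

theorem inverse_mem_supp {S : AddSubmonoid (Fin r →₀ ℕ)} {f : QSeries B} (hf : f ∈ supp (B := B) S)
    (h0 : f 0 ≠ 0) : Ring.inverse f ∈ supp (B := B) S := by
  classical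
  have hu : IsUnit f := isUnit_iff.2 h0
  have h1 := Ring.mul_inverse_cancel f hu
  rw [mem_supp]
  intro γ
  induction γ using WellFoundedLT.induction with
  | ind γ ih =>
    intro h
    by_cases hγ : γ = 0
    · rw [hγ]
      exact S.zero_mem
    by_contra hS
    have h2 := congrFun h1 γ
    rw [mul_apply, one_apply, if_neg hγ, sum_eq_single (0, γ)] at h2
    · simp only [toZ_zero, omega_zero_left, zpow_zero, one_mul, mul_eq_zero] at h2
      rcases h2 with h2 | h2
      · exact h0 h2
      · exact h h2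
    · rintro ⟨a, b⟩ hab hne
      rw [HasAntidiagonal.mem_antidiagonal] at hab
      have ha : a ≠ 0 := by
        rintro rfl
        apply hne
        simp at hab
        rw [hab]
      by_contra hc
      have hfa : f a ≠ 0 := by
        rintro h
        apply hc
        simp [h]
      have hgb : Ring.inverse f b ≠ 0 := by
        rintro h
        apply hc
        simp [h]
      exact hS (hab ▸ S.add_mem (hf a hfa) (ih b (lt_of_antidiagonal_snd hab ha) hgb))
    · intro h
      simp at h

end QSeries

/-! ### twists -/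

section twist

variable {B : Matrix (Fin r) (Fin r) ℤ}

theorem twist_apply (s : Fin r → ℤ) (F : QSeries B) (γ : Fin r →₀ ℕ) :
    twist s F γ = v ^ (2 * wt s γ) * F γ := rfl

@[simp] theorem twist_apply_zero (s : Fin r → ℤ) (F : QSeries B) : twist s F 0 = F 0 := by
  simp [twist_apply]

theorem twist_mul (s : Fin r → ℤ) (F G : QSeries B) :
    twist s (F * G) = twist s F * twist s G := by
  ext γ
  rw [twist_apply, QSeries.mul_apply, QSeries.mul_apply, Finset.mul_sum]
  refine sum_congr rfl fun p hp => ?_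
  rw [HasAntidiagonal.mem_antidiagonal] at hp
  rw [twist_apply, twist_apply, ← hp, wt_add, mul_add, zpow_add₀ v_ne_zero]
  ring

@[simp] theorem twist_one (s : Fin r → ℤ) : twist s (1 : QSeries B) = 1 := by
  ext γ
  rw [twist_apply, QSeries.one_apply]
  by_cases h : γ = 0
  · simp [h]
  · simp [h]

theorem twist_add (s : Fin r → ℤ) (F G : QSeries B) :
    twist s (F + G) = twist s F + twist s G := by
  ext γ
  simp [twist_apply, mul_add]

theorem twist_smul (s : Fin r → ℤ) (c : K) (F : QSeries B) :
    twist s (c • F) = c • twist s F := by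
  ext γ
  simp only [twist_apply, QSeries.smul_apply]
  ring

theorem twist_twist (s s' : Fin r → ℤ) (F : QSeries B) :
    twist s (twist s' F) = twist (s + s') F := by
  ext γ
  rw [twist_apply, twist_apply, twist_apply, wt_add_left, mul_add, zpow_add₀ v_ne_zero]
  ring

@[simp] theorem twist_zero_left (F : QSeries B) : twist 0 F = F := by
  ext γ
  simp [twist_apply]

theorem twist_inverse (s : Fin r → ℤ) {F : QSeries B} (h : F 0 ≠ 0) :
    twist s (Ring.inverse F) = Ring.inverse (twist s F) := by
  have hu : IsUnit F := QSeries.isUnit_iff.2 h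
  have hu' : IsUnit (twist s F) := QSeries.isUnit_iff.2 (by simpa using h)
  have h1 : twist s (Ring.inverse F) * twist s F = 1 := by
    rw [← twist_mul, Ring.inverse_mul_cancel F hu, twist_one]
  calc twist s (Ring.inverse F) = twist s (Ring.inverse F) * (twist s F * Ring.inverse (twist s F)) := by
        rw [Ring.mul_inverse_cancel _ hu', mul_one]
    _ = Ring.inverse (twist s F) := by rw [← mul_assoc, h1, one_mul]

theorem twist_mem_supp {S : AddSubmonoid (Fin r →₀ ℕ)} (s : Fin r → ℤ) {F : QSeries B}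
    (h : F ∈ QSeries.supp (B := B) S) : twist s F ∈ QSeries.supp (B := B) S := by
  intro γ hγ
  apply h
  intro h0
  apply hγ
  rw [twist_apply, h0, mul_zero]

end twist

end

end Vale.Agent.P066.Theta
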