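import Vale.Agent.P066.Theta.H615.Ring

/-!
# Factorizations `g = g_{>} g_{≤}`

Existence, uniqueness and truncated uniqueness of the factorization of a series with constant term
`1` along two complementary submonoids of `ℕ^r`; the positive part `posPart g Q`.
-/

set_option autoImplicit false

open Finset

namespace Vale.Agent.P066.Theta

noncomputable section

variable {r : ℕ} {B : Matrix (Fin r) (Fin r) ℤ}

namespace QSeries

/-- Existence of factorizations. -/
theorem exists_factor {P L : AddSubmonoid (Fin r →₀ ℕ)} (hPL : ∀ γ, γ ∈ P → γ ∈ L → γ = 0)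
    (hU : ∀ γ, γ ∈ P ∨ γ ∈ L) (g : QSeries B) (h0 : g 0 = 1) :
    ∃ gp gm : QSeries B, gp 0 = 1 ∧ gm 0 = 1 ∧ gp ∈ supp (B := B) P ∧ gm ∈ supp (B := B) L ∧
      g = gp * gm := by
  classical
  let A : ((Fin r →₀ ℕ) → K) → QSeries B := fun h γ => if γ = 0 then 1 else if γ ∈ P then h γ else 0
  let C : ((Fin r →₀ ℕ) → K) → QSeries B := fun h γ => if γ = 0 then 1 else if γ ∈ L then h γ else 0
  obtain ⟨h, hh⟩ := exists_fix (ι := Fin r →₀ ℕ) (X := K)
    (fun h γ => g γ - ∑ p ∈ (antidiagonal γ).filter (fun p => p.1 ≠ 0 ∧ p.2 ≠ 0),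
        v ^ omega B (toZ p.1) (toZ p.2) * A h p.1 * C h p.2) (by
      intro h h' γ hlt
      congr 1
      refine sum_congr rfl fun p hp => ?_
      rw [mem_filter, HasAntidiagonal.mem_antidiagonal] at hp
      have e1 : A h p.1 = A h' p.1 := by
        simp only [A]
        rw [hlt p.1 (lt_of_antidiagonal_fst hp.1 hp.2.2)]
      have e2 : C h p.2 = C h' p.2 := by
        simp only [C]
        rw [hlt p.2 (lt_of_antidiagonal_snd hp.1 hp.2.1)]
      rw [e1, e2])
  have hA0 : A h 0 = 1 := by simp [A]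
  have hC0 : C h 0 = 1 := by simp [C]
  refine ⟨A h, C h, hA0, hC0, ?_, ?_, ?_⟩
  · intro γ hγ
    by_contra hn
    apply hγ
    have : γ ≠ 0 := fun h => hn (h ▸ P.zero_mem)
    simp [A, hn, this]
  · intro γ hγ
    by_contra hn
    apply hγ
    have : γ ≠ 0 := fun h => hn (h ▸ L.zero_mem)
    simp [C, hn, this]
  · ext γ
    by_cases hγ : γ = 0
    · subst hγ
      rw [mul_zero_apply, hA0, hC0, h0, one_mul]
    · rw [mul_apply_extreme _ _ hγ, hA0, hC0, one_mul, mul_one]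
      have e : C h γ + A h γ = h γ := by
        simp only [A, C, if_neg hγ]
        by_cases hP : γ ∈ P
        · have hL : γ ∉ L := fun hL => hγ (hPL γ hP hL)
          simp [hP, hL]
        · have hL : γ ∈ L := (hU γ).resolve_left hP
          simp [hP, hL]
      rw [e, hh γ]
      ring

/-- Truncated uniqueness: on `{δ ≤ γ}` the factors only depend on the two submonoids there. -/
theorem factor_congr {P L P' L' : AddSubmonoid (Fin r →₀ ℕ)}
    (hPL : ∀ γ, γ ∈ P → γ ∈ L → γ = 0) (γ : Fin r →₀ ℕ)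
    (hP : ∀ δ, δ ≤ γ → (δ ∈ P' ↔ δ ∈ P)) (hL : ∀ δ, δ ≤ γ → (δ ∈ L' ↔ δ ∈ L))
    {gp gm gp' gm' : QSeries B}
    (h1 : gp 0 = 1) (h1' : gp' 0 = 1) (hg : (gp * gm) 0 = 1) (hg' : (gp' * gm') 0 = 1)
    (hp : gp ∈ supp (B := B) P) (hp' : gp' ∈ supp (B := B) P')
    (hm : gm ∈ supp (B := B) L) (hm' : gm' ∈ supp (B := B) L')
    (h : ∀ δ, δ ≤ γ → (gp * gm) δ = (gp' * gm') δ) :
    ∀ δ, δ ≤ γ → gp δ = gp' δ ∧ gm δ = gm' δ := by
  classical
  have hm0 : gm 0 = 1 := by
    rw [mul_zero_apply, h1, one_mul] at hg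
    exact hg
  have hm0' : gm' 0 = 1 := by
    rw [mul_zero_apply, h1', one_mul] at hg'
    exact hg'
  intro δ
  induction δ using WellFoundedLT.induction with
  | ind δ ih =>
    intro hδ
    by_cases h0 : δ = 0
    · subst h0
      exact ⟨by rw [h1, h1'], by rw [hm0, hm0']⟩
    have e := h δ hδ
    rw [mul_apply_extreme _ _ h0, mul_apply_extreme _ _ h0, h1, h1', hm0, hm0'] at e
    have e2 : ∑ p ∈ (antidiagonal δ).filter (fun p => p.1 ≠ 0 ∧ p.2 ≠ 0),
        v ^ omega B (toZ p.1) (toZ p.2) * gp p.1 * gm p.2 =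
        ∑ p ∈ (antidiagonal δ).filter (fun p => p.1 ≠ 0 ∧ p.2 ≠ 0),
        v ^ omega B (toZ p.1) (toZ p.2) * gp' p.1 * gm' p.2 := by
      refine sum_congr rfl fun p hpp => ?_
      rw [mem_filter, HasAntidiagonal.mem_antidiagonal] at hpp
      have l1 := lt_of_antidiagonal_fst hpp.1 hpp.2.2
      have l2 := lt_of_antidiagonal_snd hpp.1 hpp.2.1
      rw [(ih p.1 l1 (l1.le.trans hδ)).1, (ih p.2 l2 (l2.le.trans hδ)).2]
    rw [e2] at e
    simp only [one_mul, mul_one, add_left_inj] at e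
    by_cases hPd : δ ∈ P
    · have a1 : gm δ = 0 := by
        by_contra hc
        exact h0 (hPL δ hPd (hm δ hc))
      have a2 : gm' δ = 0 := by
        by_contra hc
        exact h0 (hPL δ hPd ((hL δ hδ).1 (hm' δ hc)))
      rw [a1, a2, zero_add, zero_add] at e
      exact ⟨e, by rw [a1, a2]⟩
    · have a1 : gp δ = 0 := by
        by_contra hc
        exact hPd (hp δ hc)
      have a2 : gp' δ = 0 := by
        by_contra hc
        exact hPd ((hP δ hδ).1 (hp' δ hc))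
      rw [a1, a2, add_zero, add_zero] at e
      exact ⟨by rw [a1, a2], e⟩

end QSeries

open QSeries

/-! ### the positive part with respect to a linear form -/

/-- `{γ | γ = 0 or Q(γ) > 0}`. -/
def posSub (Q : Fin r → ℤ) : AddSubmonoid (Fin r →₀ ℕ) where
  carrier := {γ | γ = 0 ∨ 0 < wt Q γ}
  zero_mem' := Or.inl rfl
  add_mem' := by
    rintro a b (rfl | ha) hb
    · simpa using hb
    · right
      rw [wt_add]
      rcases hb with rfl | hb
      · simpa using ha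
      · exact add_pos ha hb

/-- `{γ | Q(γ) ≤ 0}`. -/
def leSub (Q : Fin r → ℤ) : AddSubmonoid (Fin r →₀ ℕ) where
  carrier := {γ | wt Q γ ≤ 0}
  zero_mem' := by simp
  add_mem' := by
    intro a b ha hb
    simp only [Set.mem_ofPred_eq] at ha hb ⊢
    rw [wt_add]
    exact add_nonpos ha hb

theorem mem_posSub {Q : Fin r → ℤ} {γ : Fin r →₀ ℕ} : γ ∈ posSub Q ↔ γ = 0 ∨ 0 < wt Q γ := Iff.rfl

theorem mem_leSub {Q : Fin r → ℤ} {γ : Fin r →₀ ℕ} : γ ∈ leSub Q ↔ wt Q γ ≤ 0 := Iff.rfl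

theorem pos_le_disj (Q : Fin r → ℤ) (γ : Fin r →₀ ℕ) (h : γ ∈ posSub Q) (h' : γ ∈ leSub Q) :
    γ = 0 := by
  rcases mem_posSub.1 h with h | h
  · exact h
  · exact absurd (mem_leSub.1 h') (not_le.2 h)

theorem pos_or_le (Q : Fin r → ℤ) (γ : Fin r →₀ ℕ) : γ ∈ posSub Q ∨ γ ∈ leSub Q := by
  by_cases h : 0 < wt Q γ
  · exact Or.inl (Or.inr h)
  · exact Or.inr (not_lt.1 h)

theorem isPosPart_iff {g gp : QSeries B} {Q : Fin r → ℤ} :
    IsPosPart g gp Q ↔ gp 0 = 1 ∧ gp ∈ supp (B := B) (posSub Q) ∧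
      ∃ gm ∈ supp (B := B) (leSub Q), g = gp * gm := by
  constructor
  · intro h
    refine ⟨h.zero, ?_, ?_⟩
    · intro γ hγ
      by_cases h0 : γ = 0
      · exact Or.inl h0
      · exact Or.inr (h.supp γ h0 hγ)
    · obtain ⟨gm, h1, h2⟩ := h.rest
      exact ⟨gm, h1, h2⟩
  · rintro ⟨h1, h2, gm, h3, h4⟩
    exact ⟨h1, fun γ h0 hγ => (h2 γ hγ).resolve_left h0, gm, h3, h4⟩

theorem exists_isPosPart {g : QSeries B} (h0 : g 0 = 1) (Q : Fin r → ℤ) :
    ∃ gp, IsPosPart g gp Q := by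
  obtain ⟨gp, gm, h1, -, h3, h4, h5⟩ := exists_factor (pos_le_disj Q) (pos_or_le Q) g h0
  exact ⟨gp, isPosPart_iff.2 ⟨h1, h3, gm, h4, h5⟩⟩

/-- Truncated uniqueness of positive parts. -/
theorem IsPosPart.congr {g gp gp' : QSeries B} {Q Q' : Fin r → ℤ} (h0 : g 0 = 1)
    (h : IsPosPart g gp Q) (h' : IsPosPart g gp' Q') (γ : Fin r →₀ ℕ)
    (hQ : ∀ δ, δ ≤ γ → (0 < wt Q' δ ↔ 0 < wt Q δ)) : gp γ = gp' γ := by
  obtain ⟨h1, h2, gm, h3, h4⟩ := isPosPart_iff.1 h
  obtain ⟨h1', h2', gm', h3', h4'⟩ := isPosPart_iff.1 h'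
  refine (factor_congr (pos_le_disj Q) γ ?_ ?_ h1 h1' (h4 ▸ h0) (h4' ▸ h0) h2 h2' h3 h3' ?_ γ
    le_rfl).1
  · intro δ hδ
    rw [mem_posSub, mem_posSub, hQ δ hδ]
  · intro δ hδ
    rw [mem_leSub, mem_leSub, ← not_lt, ← not_lt, hQ δ hδ]
  · intro δ _
    rw [← h4, ← h4']

theorem IsPosPart.unique {g gp gp' : QSeries B} {Q : Fin r → ℤ} (h0 : g 0 = 1)
    (h : IsPosPart g gp Q) (h' : IsPosPart g gp' Q) : gp = gp' :=
  QSeries.ext fun γ => h.congr h0 h' γ fun _ _ => Iff.rfl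

/-- The positive part of `g` (`1` if the constant term of `g` is not `1`). -/
def posPart (g : QSeries B) (Q : Fin r → ℤ) : QSeries B := by
  classical
  exact if h : g 0 = 1 then Classical.choose (exists_isPosPart h Q) else 1

theorem posPart_spec {g : QSeries B} (h : g 0 = 1) (Q : Fin r → ℤ) :
    IsPosPart g (posPart g Q) Q := by
  unfold posPart
  rw [dif_pos h]
  exact Classical.choose_spec (exists_isPosPart h Q)

theorem IsPosPart.eq_posPart {g gp : QSeries B} {Q : Fin r → ℤ} (h0 : g 0 = 1)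
    (h : IsPosPart g gp Q) : gp = posPart g Q := h.unique h0 (posPart_spec h0 Q)

@[simp] theorem posPart_zero (g : QSeries B) (Q : Fin r → ℤ) : posPart g Q 0 = 1 := by
  by_cases h : g 0 = 1
  · exact (posPart_spec h Q).zero
  · unfold posPart
    rw [dif_neg h, QSeries.one_zero]

theorem posPart_mem (g : QSeries B) (Q : Fin r → ℤ) : posPart g Q ∈ supp (B := B) (posSub Q) := by
  by_cases h : g 0 = 1
  · exact (isPosPart_iff.1 (posPart_spec h Q)).2.1
  · unfold posPart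
    rw [dif_neg h]
    exact one_mem _

theorem isUnit_posPart (g : QSeries B) (Q : Fin r → ℤ) : IsUnit (posPart g Q) :=
  isUnit_of_one (posPart_zero g Q)

/-- In the chamber `C⁺` there is nothing to do. -/
theorem isPosPart_one {g : QSeries B} {Q : Fin r → ℤ} (hQ : ∀ i, Q i ≤ 0) : IsPosPart g 1 Q where
  zero := QSeries.one_zero
  supp := by
    intro γ hγ h
    rw [one_apply, if_neg hγ] at h
    exact absurd rfl h
  rest := by
    refine ⟨g, ?_, by rw [one_mul]⟩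
    intro γ _
    unfold wt
    exact sum_nonpos fun i _ => mul_nonpos_of_nonneg_of_nonpos (by positivity) (hQ i)

theorem posPart_eq_one {g : QSeries B} (h0 : g 0 = 1) {Q : Fin r → ℤ} (hQ : ∀ i, Q i ≤ 0) :
    posPart g Q = 1 :=
  ((isPosPart_one hQ).eq_posPart h0).symm

/-- Only the signs of `Q` on `{δ ≤ γ}` matter for the coefficient at `γ`. -/
theorem posPart_congr {g : QSeries B} {Q Q' : Fin r → ℤ} (γ : Fin r →₀ ℕ)
    (hQ : ∀ δ, δ ≤ γ → (0 < wt Q δ ↔ 0 < wt Q' δ)) : posPart g Q γ = posPart g Q' γ := by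
  by_cases h0 : g 0 = 1
  · exact (posPart_spec h0 Q).congr h0 (posPart_spec h0 Q') γ fun δ hδ => (hQ δ hδ).symm
  · unfold posPart
    rw [dif_neg h0, dif_neg h0]

end

end Vale.Agent.P066.Theta
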