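import Vale.Agent.P066.Theta.H615.Chart

/-!
# The family of theta functions `ϑ_γ`, `γ ∈ ℕ^r`

`thF g s` is the theta function with shift `s`, `th g γ = x^γ F_γ` the theta function of the
exponent `γ` (with `p = γ`, so that `s i = ω(y_i, γ)`), `al g 0 γ` the functional reading off the
coefficient of `ϑ_γ`.
-/

set_option autoImplicit false

open Finset

namespace Vale.Agent.P066.Theta

noncomputable section

open QSeries

variable {r : ℕ} {B : Matrix (Fin r) (Fin r) ℤ}

/-- The theta function with shift `s` (`1` if the constant term of `g` is not `1`). -/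
def thF (g : QSeries B) (s : Fin r → ℤ) : QSeries B := by
  classical
  exact if h : g 0 = 1 then Classical.choose (exists_isTheta h s) else 1

theorem thF_spec {g : QSeries B} (h0 : g 0 = 1) (s : Fin r → ℤ) : IsTheta g s (thF g s) := by
  unfold thF
  rw [dif_pos h0]
  exact Classical.choose_spec (exists_isTheta h0 s)

theorem IsTheta.eq_thF {g : QSeries B} (h0 : g 0 = 1) {s : Fin r → ℤ} {F : QSeries B}
    (h : IsTheta g s F) : F = thF g s := h.unique h0 (thF_spec h0 s)

theorem al_thF {g : QSeries B} (h0 : g 0 = 1) (s : Fin r → ℤ) (γ : Fin r →₀ ℕ) :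
    al g s γ (thF g s) = if γ = 0 then 1 else 0 := by
  obtain ⟨h1, h2⟩ := (isTheta_iff h0).1 (thF_spec h0 s)
  split_ifs with h
  · rw [h, al_zero_exp, h1]
  · exact h2 γ h

/-- `ϑ_γ = x^γ F_γ`. -/
def th (g : QSeries B) (γ : Fin r →₀ ℕ) : QSeries B := mono γ * thF g (chartAt B 0 γ)

theorem th_add {g : QSeries B} (γ ε : Fin r →₀ ℕ) :
    th g γ (γ + ε) = v ^ omega B (toZ γ) (toZ ε) * thF g (chartAt B 0 γ) ε := mono_mul_add _ _ _

theorem th_supp {g : QSeries B} {γ η : Fin r →₀ ℕ} (h : th g γ η ≠ 0) : γ ≤ η := by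
  by_contra h1
  exact h (mono_mul_eq_zero γ η h1 _)

theorem th_self {g : QSeries B} (h0 : g 0 = 1) (γ : Fin r →₀ ℕ) : th g γ γ = 1 := by
  have h1 := th_add (g := g) γ 0
  rw [add_zero] at h1
  rw [h1, (thF_spec h0 _).zero]
  simp

theorem al_th (hB : B.transpose = -B) {g : QSeries B} (h0 : g 0 = 1) (γ δ : Fin r →₀ ℕ) :
    al g 0 γ (th g δ) = if γ = δ then 1 else 0 := by
  by_cases h : δ ≤ γ
  · obtain ⟨ε, rfl⟩ := exists_add_of_le h
    unfold th
    rw [al_mono_mul_add hB, zero_add, al_thF h0]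
    by_cases h1 : ε = 0
    · simp [h1]
    · rw [if_neg h1, if_neg (by simpa using h1), mul_zero]
  · unfold th
    rw [al_mono_mul_eq_zero hB g 0 h, if_neg]
    rintro rfl
    exact h le_rfl

theorem expand (hB : B.transpose = -B) {g : QSeries B} (h0 : g 0 = 1) (h : QSeries B)
    (η : Fin r →₀ ℕ) : h η = ∑ γ ∈ Finset.Iic η, al g 0 γ h * th g γ η := by
  classical
  have h1 : Agree η h (∑ γ ∈ Finset.Iic η, al g 0 γ h • th g γ) := by
    refine eq_of_al_eq (g := g) (s := 0) ?_
    intro γ hγ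
    rw [map_sum, sum_eq_single γ]
    · rw [map_smul, al_th hB h0, if_pos rfl, smul_eq_mul, mul_one]
    · intro δ _ hδ
      rw [map_smul, al_th hB h0, if_neg (Ne.symm hδ), smul_zero]
    · intro hn
      exact absurd (Finset.mem_Iic.2 hγ) hn
  rw [h1 η le_rfl, QSeries.sum_apply]
  exact sum_congr rfl fun _ _ => rfl

/-- The product of two theta functions. -/
theorem th_mul_th (hB : B.transpose = -B) (g : QSeries B) (γ γ' : Fin r →₀ ℕ) :
    th g γ * th g γ' = v ^ omega B (toZ γ) (toZ γ') • (mono (γ + γ') *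
      (twist (chartAt B 0 γ') (thF g (chartAt B 0 γ)) * thF g (chartAt B 0 γ'))) := by
  unfold th
  rw [mul_assoc, ← mul_assoc (thF g (chartAt B 0 γ)), mul_mono hB, ← mul_assoc (mono γ),
    ← mul_assoc (mono γ), mono_mul_mono, smul_mul_assoc, smul_mul_assoc, mul_assoc]

theorem chartAt_zero_add (γ γ' : Fin r →₀ ℕ) :
    chartAt B 0 (γ + γ') = chartAt B 0 γ + chartAt B 0 γ' := by
  rw [chartAt_add, chartAt_eq, zero_add]

/-- Structure constants of the theta functions in terms of the shifts. -/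
theorem al_th_mul_th (hB : B.transpose = -B) (g : QSeries B) (γ γ' ε : Fin r →₀ ℕ) :
    al g 0 (γ + γ' + ε) (th g γ * th g γ') =
      v ^ (omega B (toZ γ) (toZ γ') + omega B (toZ (γ + γ')) (toZ ε)) *
        al g (chartAt B 0 γ + chartAt B 0 γ') ε
          (twist (chartAt B 0 γ') (thF g (chartAt B 0 γ)) * thF g (chartAt B 0 γ')) := by
  rw [th_mul_th hB, map_smul, al_mono_mul_add hB, zero_add, chartAt_zero_add, smul_eq_mul,
    zpow_add₀ v_ne_zero, mul_assoc]

theorem al_th_mul_th_of_not_le (hB : B.transpose = -B) (g : QSeries B) {γ γ' δ : Fin r →₀ ℕ}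
    (h : ¬ γ + γ' ≤ δ) : al g 0 δ (th g γ * th g γ') = 0 := by
  rw [th_mul_th hB, map_smul, al_mono_mul_eq_zero hB g 0 h, smul_zero]

theorem mul_lead (hB : B.transpose = -B) {g : QSeries B} (h0 : g 0 = 1) (γ γ' : Fin r →₀ ℕ) :
    al g 0 (γ + γ') (th g γ * th g γ') ≠ 0 := by
  have h1 := al_th_mul_th hB g γ γ' 0
  rw [add_zero] at h1
  rw [h1, al_zero_exp, mul_zero_apply, twist_apply_zero, (thF_spec h0 _).zero,
    (thF_spec h0 _).zero, mul_one, mul_one]
  exact zpow_ne_zero _ v_ne_zero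

/-- Trace argument. -/
theorem trace (hB : B.transpose = -B) (g : QSeries B) (γ : Fin r →₀ ℕ) (h : QSeries B)
    (hh : ∀ η, h η ≠ 0 → 0 ≤ omega B (toZ η) (toZ γ)) : al g 0 γ h = h γ := by
  apply al_eq_of_trace
  intro β hβ _
  rw [wt_chartAt_self hB, wt_zero_left, wt_chartAt, wt_zero_left, zero_add]
  exact hh β hβ

/-- For `s ≤ 0` the theta function is the monomial. -/
theorem isTheta_one (hB : B.transpose = -B) {g : QSeries B} (h0 : g 0 = 1) {s : Fin r → ℤ}
    (hs : ∀ i, s i ≤ 0) : IsTheta g s 1 := by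
  rw [isTheta_iff h0]
  refine ⟨QSeries.one_zero, ?_⟩
  intro γ hγ
  rw [al_apply]
  unfold conj
  rw [mul_one]
  have hm := posPart_mem g (chartAt B s γ)
  have h1 : twist s (posPart g (chartAt B s γ)) 0 = 1 := by simp
  have h2 := (supp (B := B) (posSub (chartAt B s γ))).mul_mem
    (inverse_mem_supp (twist_mem_supp s hm) (by rw [h1]; exact one_ne_zero)) hm
  by_contra h3
  rcases mem_posSub.1 (h2 γ h3) with h4 | h4
  · exact hγ h4
  · rw [wt_chartAt_self hB] at h4
    refine absurd h4 (not_lt.2 ?_)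
    unfold wt
    exact sum_nonpos fun i _ => mul_nonpos_of_nonneg_of_nonpos (by positivity) (hs i)

end

end Vale.Agent.P066.Theta
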