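import Vale.Agent.P066.Theta.H615.Fact
import Vale.Agent.P066.Theta.Ext

/-!
# Chart expansions and the coefficient functionals

Monomials, the expansion of `x^p F` in the chart at `Q`, the functional `al g s γ` which reads off
the coefficient of `x^{p+γ}` in the chart at `p + γ`; locality, leading terms, the trace argument,
existence and uniqueness of theta functions, and the upper triangular expansion.
-/

set_option autoImplicit false

open Finset

namespace Vale.Agent.P066.Theta

noncomputable section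

open QSeries

variable {r : ℕ} {B : Matrix (Fin r) (Fin r) ℤ}

/-! ### monomials -/

theorem mono_apply (γ η : Fin r →₀ ℕ) : (mono γ : QSeries B) η = if η = γ then 1 else 0 := rfl

@[simp] theorem mono_zero : (mono 0 : QSeries B) = 1 := rfl

@[simp] theorem mono_self (γ : Fin r →₀ ℕ) : (mono γ : QSeries B) γ = 1 := by simp [mono_apply]

theorem mono_mul_add (γ ε : Fin r →₀ ℕ) (F : QSeries B) :
    (mono γ * F : QSeries B) (γ + ε) = v ^ omega B (toZ γ) (toZ ε) * F ε := by
  rw [QSeries.mul_apply, sum_eq_single (γ, ε)]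
  · simp
  · rintro ⟨a, b⟩ hab hne
    rw [HasAntidiagonal.mem_antidiagonal] at hab
    have : a ≠ γ := by
      rintro rfl
      apply hne
      rw [add_right_inj] at hab
      exact congrArg (Prod.mk a) hab
    simp [mono_apply, this]
  · intro h
    simp at h

theorem mono_mul_eq_zero (γ η : Fin r →₀ ℕ) (h : ¬ γ ≤ η) (F : QSeries B) :
    (mono γ * F : QSeries B) η = 0 := by
  apply QSeries.mul_apply_eq_zero
  intro a b hab
  left
  rw [mono_apply, if_neg]
  rintro rfl
  exact h (hab ▸ le_self_add)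

theorem mono_mul_apply (γ η : Fin r →₀ ℕ) (F : QSeries B) :
    (mono γ * F : QSeries B) η = if γ ≤ η then v ^ omega B (toZ γ) (toZ (η - γ)) * F (η - γ) else 0 := by
  split_ifs with h
  · have := mono_mul_add γ (η - γ) F
    rwa [add_tsub_cancel_of_le h] at this
  · exact mono_mul_eq_zero γ η h F

theorem mul_mono_add (γ ε : Fin r →₀ ℕ) (F : QSeries B) :
    (F * mono γ : QSeries B) (γ + ε) = v ^ omega B (toZ ε) (toZ γ) * F ε := by
  rw [QSeries.mul_apply, sum_eq_single (ε, γ)]
  · simp
  · rintro ⟨a, b⟩ hab hne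
    rw [HasAntidiagonal.mem_antidiagonal] at hab
    have : b ≠ γ := by
      rintro rfl
      apply hne
      rw [add_comm b ε, add_left_inj] at hab
      exact congrArg (fun x => Prod.mk x b) hab
    simp [mono_apply, this]
  · intro h
    rw [HasAntidiagonal.mem_antidiagonal] at h
    exact absurd (add_comm ε γ) h

theorem mul_mono_eq_zero (γ η : Fin r →₀ ℕ) (h : ¬ γ ≤ η) (F : QSeries B) :
    (F * mono γ : QSeries B) η = 0 := by
  apply QSeries.mul_apply_eq_zero
  intro a b hab
  right
  rw [mono_apply, if_neg]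
  rintro rfl
  exact h (hab ▸ le_add_self)

theorem mono_mul_mono (α β : Fin r →₀ ℕ) :
    (mono α * mono β : QSeries B) = v ^ omega B (toZ α) (toZ β) • mono (α + β) := by
  ext η
  by_cases h : α ≤ η
  · obtain ⟨ε, rfl⟩ := exists_add_of_le h
    rw [mono_mul_add, smul_apply, mono_apply, mono_apply]
    by_cases h1 : ε = β
    · subst h1
      simp
    · rw [if_neg h1, if_neg (by rwa [add_right_inj])]
      simp
  · rw [mono_mul_eq_zero α η h, smul_apply, mono_apply, if_neg, mul_zero]
    rintro rfl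
    exact h le_self_add

/-- The form `ω(·, γ)`. -/
theorem wt_chartAt_zero (γ δ : Fin r →₀ ℕ) :
    wt (chartAt B 0 γ) δ = omega B (toZ δ) (toZ γ) := by
  unfold wt chartAt omega toZ
  refine sum_congr rfl fun i _ => ?_
  rw [Pi.zero_apply, zero_add, mul_sum]
  refine sum_congr rfl fun j _ => ?_
  ring

theorem chartAt_eq (s : Fin r → ℤ) (γ : Fin r →₀ ℕ) : chartAt B s γ = s + chartAt B 0 γ := by
  funext i
  simp [chartAt]

theorem wt_chartAt (s : Fin r → ℤ) (γ δ : Fin r →₀ ℕ) :
    wt (chartAt B s γ) δ = wt s δ + omega B (toZ δ) (toZ γ) := by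
  rw [chartAt_eq, wt_add_left, wt_chartAt_zero]

theorem wt_chartAt_self (hB : B.transpose = -B) (s : Fin r → ℤ) (γ : Fin r →₀ ℕ) :
    wt (chartAt B s γ) γ = wt s γ := by
  rw [wt_chartAt, omega_self hB, add_zero]

theorem chartAt_add (s : Fin r → ℤ) (γ δ : Fin r →₀ ℕ) :
    chartAt B s (γ + δ) = chartAt B (s + chartAt B 0 γ) δ := by
  funext i
  simp [chartAt, mul_add, sum_add_distrib, add_assoc]

@[simp] theorem chartAt_zero_right (s : Fin r → ℤ) : chartAt B s 0 = s := by
  funext i
  simp [chartAt]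

theorem mul_mono (hB : B.transpose = -B) (γ : Fin r →₀ ℕ) (F : QSeries B) :
    F * mono γ = mono γ * twist (chartAt B 0 γ) F := by
  ext η
  by_cases h : γ ≤ η
  · obtain ⟨ε, rfl⟩ := exists_add_of_le h
    rw [mono_mul_add, mul_mono_add, twist_apply, ← mul_assoc, ← zpow_add₀ v_ne_zero,
      wt_chartAt_zero, omega_swap hB (toZ γ) (toZ ε)]
    congr 2
    ring
  · rw [mono_mul_eq_zero γ η h, mul_mono_eq_zero γ η h]

/-! ### locality -/

namespace QSeries

/-- `F` vanishes on `{η ≤ γ}`. -/
def Van (γ : Fin r →₀ ℕ) (F : QSeries B) : Prop := ∀ η, η ≤ γ → F η = 0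

theorem Van.mul_left {γ : Fin r →₀ ℕ} {F : QSeries B} (h : Van γ F) (G : QSeries B) :
    Van γ (G * F) := fun _ hη =>
  mul_apply_eq_zero fun _ _ hab => Or.inr (h _ ((hab ▸ le_add_self).trans hη))

theorem Van.mul_right {γ : Fin r →₀ ℕ} {F : QSeries B} (h : Van γ F) (G : QSeries B) :
    Van γ (F * G) := fun _ hη =>
  mul_apply_eq_zero fun _ _ hab => Or.inl (h _ ((hab ▸ le_self_add).trans hη))

theorem Van.add {γ : Fin r →₀ ℕ} {F G : QSeries B} (h : Van γ F) (h' : Van γ G) :
    Van γ (F + G) := fun η hη => by rw [add_apply, h η hη, h' η hη, add_zero]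

theorem Van.smul {γ : Fin r →₀ ℕ} {F : QSeries B} (h : Van γ F) (c : K) :
    Van γ (c • F) := fun η hη => by rw [smul_apply, h η hη, mul_zero]

/-- `F` and `G` agree on `{η ≤ γ}`. -/
def Agree (γ : Fin r →₀ ℕ) (F G : QSeries B) : Prop := ∀ η, η ≤ γ → F η = G η

theorem agree_iff {γ : Fin r →₀ ℕ} {F G : QSeries B} : Agree γ F G ↔ Van γ (F - G) := by
  constructor
  · intro h η hη
    rw [sub_apply, h η hη, sub_self]
  · intro h η hη
    have := h η hη
    rw [sub_apply, sub_eq_zero] at this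
    exact this

theorem Agree.rfl' {γ : Fin r →₀ ℕ} {F : QSeries B} : Agree γ F F := fun _ _ => rfl

theorem Agree.symm {γ : Fin r →₀ ℕ} {F G : QSeries B} (h : Agree γ F G) : Agree γ G F :=
  fun η hη => (h η hη).symm

theorem Agree.trans {γ : Fin r →₀ ℕ} {F G H : QSeries B} (h : Agree γ F G) (h' : Agree γ G H) :
    Agree γ F H := fun η hη => (h η hη).trans (h' η hη)

theorem Agree.mul {γ : Fin r →₀ ℕ} {F F' G G' : QSeries B} (h : Agree γ F F')
    (h' : Agree γ G G') : Agree γ (F * G) (F' * G') := by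
  rw [agree_iff] at *
  have : F * G - F' * G' = (F - F') * G + F' * (G - G') := by
    rw [sub_mul, mul_sub]
    abel
  rw [this]
  exact (h.mul_right _).add (h'.mul_left _)

theorem Agree.twist {γ : Fin r →₀ ℕ} {F F' : QSeries B} (h : Agree γ F F') (s : Fin r → ℤ) :
    Agree γ (Theta.twist s F) (Theta.twist s F') := by
  intro η hη
  rw [twist_apply, twist_apply, h η hη]

theorem Agree.inverse {γ : Fin r →₀ ℕ} {F F' : QSeries B} (h : Agree γ F F') (h0 : F 0 ≠ 0) :
    Agree γ (Ring.inverse F) (Ring.inverse F') := by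
  have h0' : F' 0 ≠ 0 := by rwa [← h 0 zero_le]
  have hu := isUnit_iff.2 h0
  have hu' := isUnit_iff.2 h0'
  rw [agree_iff]
  have : Ring.inverse F - Ring.inverse F' = Ring.inverse F * ((F' - F) * Ring.inverse F') := by
    rw [sub_mul, mul_sub, Ring.mul_inverse_cancel _ hu', mul_one, ← mul_assoc,
      Ring.inverse_mul_cancel _ hu, one_mul]
  rw [this]
  exact ((agree_iff.1 h.symm).mul_right _).mul_left _

end QSeries

/-! ### expansions in charts -/

/-- `gp⁻¹ (x^p F) gp = x^p R`, `R = (twist s gp)⁻¹ F gp`. -/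
def conj (s : Fin r → ℤ) (gp F : QSeries B) : QSeries B := Ring.inverse (twist s gp) * F * gp

theorem conj_iff {s : Fin r → ℤ} {gp F R : QSeries B} (h : gp 0 = 1) :
    R = conj s gp F ↔ twist s gp * R = F * gp := by
  have hu : IsUnit (twist s gp) := isUnit_of_one (by rw [twist_apply_zero, h])
  unfold conj
  constructor
  · rintro rfl
    rw [mul_assoc, ← mul_assoc, Ring.mul_inverse_cancel _ hu, one_mul]
  · intro h1
    rw [mul_assoc, ← h1, ← mul_assoc, Ring.inverse_mul_cancel _ hu, one_mul]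

@[simp] theorem conj_one (s : Fin r → ℤ) (F : QSeries B) : conj s 1 F = F := by
  simp [conj]

theorem conj_agree {γ : Fin r →₀ ℕ} {s : Fin r → ℤ} {gp gp' F F' : QSeries B}
    (h1 : gp 0 = 1) (h : Agree γ gp gp') (hF : Agree γ F F') :
    Agree γ (conj s gp F) (conj s gp' F') :=
  (((h.twist s).inverse (by rw [twist_apply_zero, h1]; exact one_ne_zero)).mul hF).mul h

/-- The coefficient at `γ` is unchanged if `γ` is extreme. -/
theorem mul_mul_apply_of_extreme {P : AddSubmonoid (Fin r →₀ ℕ)} {p F q : QSeries B}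
    {γ : Fin r →₀ ℕ} (hp : p ∈ supp (B := B) P) (hq : q ∈ supp (B := B) P) (hp0 : p 0 = 1)
    (hq0 : q 0 = 1)
    (h : ∀ a ∈ P, ∀ b ∈ P, ∀ β, F β ≠ 0 → a + β + b = γ → a = 0 ∧ b = 0) :
    (p * F * q) γ = F γ := by
  rw [QSeries.mul_apply, sum_eq_single (γ, 0)]
  · simp only [toZ_zero, omega_zero_right, zpow_zero, one_mul, hq0, mul_one]
    rw [QSeries.mul_apply, sum_eq_single (0, γ)]
    · simp only [toZ_zero, omega_zero_left, zpow_zero, one_mul, hp0]
    · rintro ⟨a, β⟩ hab hne
      rw [HasAntidiagonal.mem_antidiagonal] at hab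
      by_contra hc
      have h1 : p a ≠ 0 := fun h1 => hc (by simp [h1])
      have h2 : F β ≠ 0 := fun h2 => hc (by simp [h2])
      have := (h a (hp a h1) 0 P.zero_mem β h2 (by rw [add_zero]; exact hab)).1
      subst this
      apply hne
      simp at hab
      rw [hab]
    · intro h
      simp at h
  · rintro ⟨c, b⟩ hcb hne
    rw [HasAntidiagonal.mem_antidiagonal] at hcb
    have hb : b ≠ 0 := by
      rintro rfl
      apply hne
      simp at hcb
      rw [hcb]
    by_contra hc
    have h1 : q b ≠ 0 := fun h1 => hc (by simp [h1])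
    have h2 : (p * F) c ≠ 0 := fun h2 => hc (by simp [h2])
    apply h2
    apply QSeries.mul_apply_eq_zero
    intro a β haβ
    by_contra hc'
    push Not at hc'
    apply hb
    exact (h a (hp a hc'.1) b (hq b h1) β hc'.2 (by rw [haβ]; exact hcb)).2
  · intro h
    simp at h

/-- The coefficient functional: the coefficient of `x^{p+γ}` in the chart at `p + γ`, up to a power
of `v`, where `s i = ω(y_i, p)`. -/
def al (g : QSeries B) (s : Fin r → ℤ) (γ : Fin r →₀ ℕ) : QSeries B →ₗ[K] K where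
  toFun F := conj s (posPart g (chartAt B s γ)) F γ
  map_add' F F' := by
    unfold conj
    rw [mul_add, add_mul, add_apply]
  map_smul' c F := by
    unfold conj
    rw [mul_smul_comm, smul_mul_assoc, smul_apply]
    rfl

theorem al_apply (g : QSeries B) (s : Fin r → ℤ) (γ : Fin r →₀ ℕ) (F : QSeries B) :
    al g s γ F = conj s (posPart g (chartAt B s γ)) F γ := rfl

theorem isChartExpansion_iff {g : QSeries B} (h0 : g 0 = 1) {s : Fin r → ℤ} {γ : Fin r →₀ ℕ}
    {F R : QSeries B} :
    IsChartExpansion g s γ F R ↔ R = conj s (posPart g (chartAt B s γ)) F := by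
  rw [conj_iff (posPart_zero _ _)]
  constructor
  · rintro ⟨gp, h1, h2⟩
    rwa [h1.eq_posPart h0] at h2
  · intro h
    exact ⟨_, posPart_spec h0 _, h⟩

theorem IsChartExpansion.eq_al {g : QSeries B} (h0 : g 0 = 1) {s : Fin r → ℤ} {γ : Fin r →₀ ℕ}
    {F R : QSeries B} (h : IsChartExpansion g s γ F R) : R γ = al g s γ F := by
  rw [(isChartExpansion_iff h0).1 h]
  rfl

theorem isTheta_iff {g : QSeries B} (h0 : g 0 = 1) {s : Fin r → ℤ} {F : QSeries B} :
    IsTheta g s F ↔ F 0 = 1 ∧ ∀ γ, γ ≠ 0 → al g s γ F = 0 := by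
  constructor
  · intro h
    exact ⟨h.zero, fun γ hγ => h.vanish γ hγ _ ((isChartExpansion_iff h0).2 rfl)⟩
  · rintro ⟨h1, h2⟩
    exact ⟨h1, fun γ hγ R hR => by rw [hR.eq_al h0, h2 γ hγ]⟩

/-- `al g s γ F` depends only on the restriction of `F` to `{η ≤ γ}`. -/
theorem al_congr (g : QSeries B) (s : Fin r → ℤ) {γ : Fin r →₀ ℕ} {F F' : QSeries B}
    (h : Agree γ F F') : al g s γ F = al g s γ F' :=
  conj_agree (posPart_zero _ _) Agree.rfl' h γ le_rfl

/-- Trace argument: if `γ` is a minimum of `ω(·, p + γ)` on the support of `F` then the coefficient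
is not changed. -/
theorem al_eq_of_trace (g : QSeries B) (s : Fin r → ℤ) {γ : Fin r →₀ ℕ} {F : QSeries B}
    (h : ∀ β, F β ≠ 0 → β ≤ γ → wt (chartAt B s γ) γ ≤ wt (chartAt B s γ) β) :
    al g s γ F = F γ := by
  rw [al_apply]
  unfold conj
  have hm := posPart_mem g (chartAt B s γ)
  have h1 : twist s (posPart g (chartAt B s γ)) 0 = 1 := by simp
  refine mul_mul_apply_of_extreme (inverse_mem_supp (twist_mem_supp s hm)
    (by rw [h1]; exact one_ne_zero)) hm (inverse_zero_apply h1) (posPart_zero _ _) ?_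
  intro a ha b hb β hβ hab
  have h2 := h β hβ (by rw [← hab, add_assoc, add_left_comm]; exact le_self_add)
  rw [← hab, wt_add, wt_add] at h2
  rcases mem_posSub.1 ha with ha | ha <;> rcases mem_posSub.1 hb with hb | hb
  · exact ⟨ha, hb⟩
  · rw [hab] at h2
    subst ha
    simp only [wt_zero] at h2
    omega
  · rw [hab] at h2
    subst hb
    simp only [wt_zero] at h2
    omega
  · rw [hab] at h2
    omega

/-- If `F` vanishes below `γ` then the coefficient is `F γ`. -/
theorem al_eq_of_bottom (g : QSeries B) (s : Fin r → ℤ) {γ : Fin r →₀ ℕ} {F : QSeries B}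
    (h : ∀ β, β < γ → F β = 0) : al g s γ F = F γ := by
  apply al_eq_of_trace
  intro β hβ hle
  rcases hle.eq_or_lt with h1 | h1
  · rw [h1]
  · exact absurd (h β h1) hβ

@[simp] theorem al_zero_exp (g : QSeries B) (s : Fin r → ℤ) (F : QSeries B) :
    al g s 0 F = F 0 :=
  al_eq_of_bottom g s fun _ hβ => absurd hβ not_lt_zero

/-- `F` cut off outside `{η < γ}`. -/
def cutLT (γ : Fin r →₀ ℕ) (F : QSeries B) : QSeries B := by
  classical
  exact fun η => if η < γ then F η else 0

theorem cutLT_apply (γ η : Fin r →₀ ℕ) (F : QSeries B) [Decidable (η < γ)] :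
    cutLT γ F η = if η < γ then F η else 0 := by
  unfold cutLT
  congr

theorem cutLT_congr {γ : Fin r →₀ ℕ} {F F' : QSeries B} (h : ∀ δ, δ < γ → F δ = F' δ) :
    cutLT γ F = cutLT γ F' := by
  classical
  ext η
  rw [cutLT_apply, cutLT_apply]
  split_ifs with h1
  · exact h η h1
  · rfl

theorem al_split (g : QSeries B) (s : Fin r → ℤ) (γ : Fin r →₀ ℕ) (F : QSeries B) :
    al g s γ F = F γ + al g s γ (cutLT γ F) := by
  classical
  have h1 : F = (F - cutLT γ F) + cutLT γ F := by rw [sub_add_cancel]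
  conv_lhs => rw [h1]
  rw [map_add, al_eq_of_bottom g s (F := F - cutLT γ F)]
  · rw [sub_apply, cutLT_apply, if_neg (lt_irrefl γ), sub_zero]
  · intro β hβ
    rw [sub_apply, cutLT_apply, if_pos hβ, sub_self]

/-! ### theta functions -/

theorem exists_isTheta {g : QSeries B} (h0 : g 0 = 1) (s : Fin r → ℤ) :
    ∃ F : QSeries B, IsTheta g s F := by
  classical
  obtain ⟨(F : QSeries B), hF⟩ := exists_fix (ι := Fin r →₀ ℕ) (X := K)
    (fun (F : QSeries B) γ => if γ = 0 then 1 else - al g s γ (cutLT γ F)) (by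
      intro f f' γ h
      by_cases hγ : γ = 0
      · simp [hγ]
      · simp only [hγ, if_false]
        exact congrArg (fun x => - al g s γ x) (cutLT_congr (B := B) h))
  refine ⟨F, (isTheta_iff h0).2 ⟨?_, ?_⟩⟩
  · have := hF 0
    simpa using this
  · intro γ hγ
    have := hF γ
    simp only [hγ, if_false] at this
    rw [al_split, this, neg_add_cancel]

theorem eq_of_al_eq {g : QSeries B} {s : Fin r → ℤ} {F F' : QSeries B} {δ : Fin r →₀ ℕ}
    (h : ∀ γ, γ ≤ δ → al g s γ F = al g s γ F') : Agree δ F F' := by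
  classical
  intro γ
  induction γ using WellFoundedLT.induction with
  | ind γ ih =>
    intro hγ
    have h1 := h γ hγ
    rw [al_split g s γ F, al_split g s γ F'] at h1
    have h2 : cutLT γ F = cutLT γ F' := cutLT_congr fun η h3 => ih η h3 (h3.le.trans hγ)
    rw [h2] at h1
    exact add_right_cancel h1

theorem IsTheta.unique {g : QSeries B} (h0 : g 0 = 1) {s : Fin r → ℤ} {F F' : QSeries B}
    (h : IsTheta g s F) (h' : IsTheta g s F') : F = F' := by
  obtain ⟨h1, h2⟩ := (isTheta_iff h0).1 h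
  obtain ⟨h1', h2'⟩ := (isTheta_iff h0).1 h'
  ext δ
  refine eq_of_al_eq (g := g) (s := s) (δ := δ) ?_ δ le_rfl
  intro γ _
  by_cases hγ : γ = 0
  · subst hγ
    rw [al_zero_exp, al_zero_exp, h1, h1']
  · rw [h2 γ hγ, h2' γ hγ]

/-! ### translation -/

theorem conj_mono_mul (hB : B.transpose = -B) (δ : Fin r →₀ ℕ) {gp : QSeries B} (h1 : gp 0 = 1)
    (s : Fin r → ℤ) (F : QSeries B) :
    conj s gp (mono δ * F) = mono δ * conj (s + chartAt B 0 δ) gp F := by
  unfold conj
  have h2 : twist s gp 0 ≠ 0 := by simp [h1]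
  rw [← mul_assoc, mul_mono hB, twist_inverse _ h2, twist_twist, add_comm (chartAt B 0 δ) s,
    mul_assoc, mul_assoc, mul_assoc]

theorem al_mono_mul_add (hB : B.transpose = -B) (g : QSeries B) (s : Fin r → ℤ)
    (δ ε : Fin r →₀ ℕ) (F : QSeries B) :
    al g s (δ + ε) (mono δ * F) =
      v ^ omega B (toZ δ) (toZ ε) * al g (s + chartAt B 0 δ) ε F := by
  rw [al_apply, conj_mono_mul hB δ (posPart_zero _ _), mono_mul_add, al_apply, chartAt_add]

theorem al_mono_mul_eq_zero (hB : B.transpose = -B) (g : QSeries B) (s : Fin r → ℤ)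
    {δ γ : Fin r →₀ ℕ} (h : ¬ δ ≤ γ) (F : QSeries B) :
    al g s γ (mono δ * F) = 0 := by
  rw [al_apply, conj_mono_mul hB δ (posPart_zero _ _), mono_mul_eq_zero δ γ h]

end

end Vale.Agent.P066.Theta
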