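import Vale.Agent.P066.Theta.H615.Family
import Vale.Agent.P066.Theta.Uncond

/-!
# Triple factorizations `g = g_{>} g_0 g_{<}`

Existence, uniqueness, truncated uniqueness (up to an exponent or up to a degree), refinement.
-/

set_option autoImplicit false

open Finset

namespace Vale.Agent.P066.Theta

noncomputable section

open QSeries

variable {r : ℕ} {B : Matrix (Fin r) (Fin r) ℤ}

/-! ### degree -/

@[simp] theorem deg_zero : deg (0 : Fin r →₀ ℕ) = 0 := by simp [deg]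

theorem deg_add (a b : Fin r →₀ ℕ) : deg (a + b) = deg a + deg b := by
  simp [deg, sum_add_distrib]

theorem deg_smul (n : ℕ) (a : Fin r →₀ ℕ) : deg (n • a) = n * deg a := by
  simp [deg, mul_sum]

theorem deg_mono {a b : Fin r →₀ ℕ} (h : a ≤ b) : deg a ≤ deg b := by
  obtain ⟨c, rfl⟩ := exists_add_of_le h
  rw [deg_add]
  exact Nat.le_add_right _ _

theorem deg_eq_zero {a : Fin r →₀ ℕ} : deg a = 0 ↔ a = 0 := by
  constructor
  · intro h
    ext i
    unfold deg at h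
    rw [sum_eq_zero_iff] at h
    exact h i (mem_univ i)
  · rintro rfl
    exact deg_zero

theorem deg_pos {a : Fin r →₀ ℕ} : 0 < deg a ↔ a ≠ 0 := by
  rw [pos_iff_ne_zero, Ne, deg_eq_zero]

theorem deg_strictMono {a b : Fin r →₀ ℕ} (h : a < b) : deg a < deg b := by
  obtain ⟨c, rfl⟩ := exists_add_of_le h.le
  rw [deg_add]
  have : c ≠ 0 := by
    rintro rfl
    rw [add_zero] at h
    exact lt_irrefl _ h
  have := deg_pos.2 this
  omega

@[simp] theorem deg_single (j : Fin r) (n : ℕ) : deg (Finsupp.single j n) = n := by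
  unfold deg
  rw [sum_eq_single j]
  · simp
  · intro i _ hi
    rw [Finsupp.single_apply, if_neg (Ne.symm hi)]
  · intro h
    exact absurd (mem_univ j) h

/-! ### factors, locally -/

namespace QSeries

/-- Truncated uniqueness of factorizations; all conditions are only needed below `γ`. -/
theorem factor_agree {P L : Set (Fin r →₀ ℕ)} (γ : Fin r →₀ ℕ)
    (hPL : ∀ δ, δ ≤ γ → δ ∈ P → δ ∈ L → δ = 0) {gp gm gp' gm' : QSeries B}
    (h1 : gp 0 = 1) (h1' : gp' 0 = 1) (hm0 : gm 0 = 1) (hm0' : gm' 0 = 1)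
    (hp : ∀ δ, δ ≤ γ → gp δ ≠ 0 → δ ∈ P) (hp' : ∀ δ, δ ≤ γ → gp' δ ≠ 0 → δ ∈ P)
    (hm : ∀ δ, δ ≤ γ → gm δ ≠ 0 → δ ∈ L) (hm' : ∀ δ, δ ≤ γ → gm' δ ≠ 0 → δ ∈ L)
    (h : Agree γ (gp * gm) (gp' * gm')) : Agree γ gp gp' ∧ Agree γ gm gm' := by
  classical
  have key : ∀ δ, δ ≤ γ → gp δ = gp' δ ∧ gm δ = gm' δ := by
    intro δ
    induction δ using WellFoundedLT.induction with
    | ind δ ih =>
      intro hδ
      by_cases h0 : δ = 0
      · subst h0
        exact ⟨by rw [h1, h1'], by rw [hm0, hm0']⟩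
      have e := h δ hδ
      rw [mul_apply_extreme _ _ h0, mul_apply_extreme _ _ h0, h1, h1', hm0, hm0'] at e
      have e2 : ∑ p ∈ (antidiagonal δ).filter (fun p => p.1 ≠ 0 ∧ p.2 ≠ 0),
          v ^ omega B (toZ p.1) (toZ p.2) * gp p.1 * gm p.2 =
          ∑ p ∈ (antidiagonal δ).filter (fun p => p.1 ≠ 0 ∧ p.2 ≠ 0),
          v ^ omega B (toZ p.1) (toZ p.2) * gp' p.1 * gm' p.2 := by
        refine sum_congr rfl fun p hpp => ?_
        rw [mem_filter, HasAntidiagonal.mem_antidiagonal] at hpp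
        have l1 := lt_of_antidiagonal_fst hpp.1 hpp.2.2
        have l2 := lt_of_antidiagonal_snd hpp.1 hpp.2.1
        rw [(ih p.1 l1 (l1.le.trans hδ)).1, (ih p.2 l2 (l2.le.trans hδ)).2]
      rw [e2] at e
      simp only [one_mul, mul_one, add_left_inj] at e
      by_cases hPd : δ ∈ P
      · have a1 : gm δ = 0 := by
          by_contra hc
          exact h0 (hPL δ hδ hPd (hm δ hδ hc))
        have a2 : gm' δ = 0 := by
          by_contra hc
          exact h0 (hPL δ hδ hPd (hm' δ hδ hc))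
        rw [a1, a2, zero_add, zero_add] at e
        exact ⟨e, by rw [a1, a2]⟩
      · have a1 : gp δ = 0 := by
          by_contra hc
          exact hPd (hp δ hδ hc)
        have a2 : gp' δ = 0 := by
          by_contra hc
          exact hPd (hp' δ hδ hc)
        rw [a1, a2, add_zero, add_zero] at e
        exact ⟨by rw [a1, a2], e⟩
  exact ⟨fun δ hδ => (key δ hδ).1, fun δ hδ => (key δ hδ).2⟩

/-- The factors of a series supported on a submonoid are supported there. -/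
theorem factor_mem {P L : Set (Fin r →₀ ℕ)} (hPL : ∀ δ, δ ∈ P → δ ∈ L → δ = 0)
    {gp gm : QSeries B} (h1 : gp 0 = 1) (hm0 : gm 0 = 1)
    (hp : ∀ δ, gp δ ≠ 0 → δ ∈ P) (hm : ∀ δ, gm δ ≠ 0 → δ ∈ L)
    {S : AddSubmonoid (Fin r →₀ ℕ)} (hS : gp * gm ∈ supp (B := B) S) :
    gp ∈ supp (B := B) S ∧ gm ∈ supp (B := B) S := by
  classical
  have key : ∀ δ, δ ∉ S → gp δ = 0 ∧ gm δ = 0 := by
    intro δ
    induction δ using WellFoundedLT.induction with
    | ind δ ih =>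
      intro hδ
      have h0 : δ ≠ 0 := fun h => hδ (h ▸ S.zero_mem)
      have e : (gp * gm) δ = 0 := by
        by_contra hc
        exact hδ (hS δ hc)
      rw [mul_apply_extreme _ _ h0, h1, hm0] at e
      have e2 : ∑ p ∈ (antidiagonal δ).filter (fun p => p.1 ≠ 0 ∧ p.2 ≠ 0),
          v ^ omega B (toZ p.1) (toZ p.2) * gp p.1 * gm p.2 = 0 := by
        refine sum_eq_zero fun p hpp => ?_
        rw [mem_filter, HasAntidiagonal.mem_antidiagonal] at hpp
        by_cases ha : p.1 ∈ S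
        · have hb : p.2 ∉ S := fun hb => hδ (hpp.1 ▸ S.add_mem ha hb)
          rw [(ih p.2 (lt_of_antidiagonal_snd hpp.1 hpp.2.1) hb).2, mul_zero]
        · rw [(ih p.1 (lt_of_antidiagonal_fst hpp.1 hpp.2.2) ha).1, mul_zero, zero_mul]
      rw [e2, one_mul, mul_one, add_zero] at e
      by_cases hPd : δ ∈ P
      · have a1 : gm δ = 0 := by
          by_contra hc
          exact h0 (hPL δ hPd (hm δ hc))
        rw [a1, zero_add] at e
        exact ⟨e, a1⟩
      · have a1 : gp δ = 0 := by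
          by_contra hc
          exact hPd (hp δ hc)
        rw [a1, add_zero] at e
        exact ⟨a1, e⟩
  refine ⟨fun δ hδ => ?_, fun δ hδ => ?_⟩
  · by_contra hc
    exact hδ (key δ hc).1
  · by_contra hc
    exact hδ (key δ hc).2

end QSeries

/-! ### submonoids attached to a form -/

/-- `{γ | 0 ≤ Q(γ)}`. -/
def geSub (Q : Fin r → ℤ) : AddSubmonoid (Fin r →₀ ℕ) where
  carrier := {γ | 0 ≤ wt Q γ}
  zero_mem' := by simp
  add_mem' := by
    intro a b ha hb
    simp only [Set.mem_ofPred_eq] at ha hb ⊢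
    rw [wt_add]
    exact add_nonneg ha hb

/-- `{γ | Q(γ) = 0}`. -/
def zeroSub (Q : Fin r → ℤ) : AddSubmonoid (Fin r →₀ ℕ) where
  carrier := {γ | wt Q γ = 0}
  zero_mem' := by simp
  add_mem' := by
    intro a b ha hb
    simp only [Set.mem_ofPred_eq] at ha hb ⊢
    rw [wt_add, ha, hb, add_zero]

/-- `{γ | γ = 0 or Q(γ) < 0}`. -/
def negSub (Q : Fin r → ℤ) : AddSubmonoid (Fin r →₀ ℕ) where
  carrier := {γ | γ = 0 ∨ wt Q γ < 0}
  zero_mem' := Or.inl rfl
  add_mem' := by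
    rintro a b (rfl | ha) hb
    · simpa using hb
    · right
      rw [wt_add]
      rcases hb with rfl | hb
      · simpa using ha
      · exact add_neg ha hb

theorem mem_geSub {Q : Fin r → ℤ} {γ : Fin r →₀ ℕ} : γ ∈ geSub Q ↔ 0 ≤ wt Q γ := Iff.rfl

theorem mem_zeroSub {Q : Fin r → ℤ} {γ : Fin r →₀ ℕ} : γ ∈ zeroSub Q ↔ wt Q γ = 0 := Iff.rfl

theorem mem_negSub {Q : Fin r → ℤ} {γ : Fin r →₀ ℕ} : γ ∈ negSub Q ↔ γ = 0 ∨ wt Q γ < 0 := Iff.rfl

theorem wt_neg (Q : Fin r → ℤ) (γ : Fin r →₀ ℕ) : wt (-Q) γ = - wt Q γ := by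
  simp [wt]

theorem wt_smul (n : ℕ) (Q : Fin r → ℤ) (γ : Fin r →₀ ℕ) : wt Q (n • γ) = n * wt Q γ := by
  simp [wt, mul_sum, mul_assoc]

theorem wt_smul_left (n : ℤ) (Q : Fin r → ℤ) (γ : Fin r →₀ ℕ) : wt (n • Q) γ = n * wt Q γ := by
  unfold wt
  rw [mul_sum]
  refine sum_congr rfl fun i _ => ?_
  simp only [Pi.smul_apply, smul_eq_mul]
  ring

/-! ### triples -/

theorem isTriple_iff {g gp g0 gm : QSeries B} {Q : Fin r → ℤ} :
    IsTriple g gp g0 gm Q ↔ gp 0 = 1 ∧ gp ∈ supp (B := B) (posSub Q) ∧ g0 0 = 1 ∧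
      g0 ∈ supp (B := B) (zeroSub Q) ∧ gm 0 = 1 ∧ gm ∈ supp (B := B) (negSub Q) ∧
      g = gp * g0 * gm := by
  constructor
  · intro h
    refine ⟨h.gp_zero, ?_, h.g0_zero, h.g0_supp, h.gm_zero, ?_, h.eq⟩
    · intro γ hγ
      by_cases h0 : γ = 0
      · exact Or.inl h0
      · exact Or.inr (h.gp_supp γ h0 hγ)
    · intro γ hγ
      by_cases h0 : γ = 0
      · exact Or.inl h0
      · exact Or.inr (h.gm_supp γ h0 hγ)
  · rintro ⟨h1, h2, h3, h4, h5, h6, h7⟩
    exact ⟨h1, fun γ h0 hγ => (h2 γ hγ).resolve_left h0, h3, h4, h5,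
      fun γ h0 hγ => (h6 γ hγ).resolve_left h0, h7⟩

theorem IsTriple.gp_mem {g gp g0 gm : QSeries B} {Q : Fin r → ℤ} (h : IsTriple g gp g0 gm Q) :
    gp ∈ supp (B := B) (posSub Q) := (isTriple_iff.1 h).2.1

theorem IsTriple.g0_mem {g gp g0 gm : QSeries B} {Q : Fin r → ℤ} (h : IsTriple g gp g0 gm Q) :
    g0 ∈ supp (B := B) (zeroSub Q) := (isTriple_iff.1 h).2.2.2.1

theorem IsTriple.gm_mem {g gp g0 gm : QSeries B} {Q : Fin r → ℤ} (h : IsTriple g gp g0 gm Q) :
    gm ∈ supp (B := B) (negSub Q) := (isTriple_iff.1 h).2.2.2.2.2.1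

theorem IsTriple.g_zero {g gp g0 gm : QSeries B} {Q : Fin r → ℤ} (h : IsTriple g gp g0 gm Q) :
    g 0 = 1 := by
  rw [h.eq, mul_zero_apply, mul_zero_apply, h.gp_zero, h.g0_zero, h.gm_zero, one_mul, one_mul]

theorem zeroSub_le_leSub (Q : Fin r → ℤ) : zeroSub Q ≤ leSub Q := fun _ h =>
  mem_leSub.2 (mem_zeroSub.1 h).le

theorem negSub_le_leSub (Q : Fin r → ℤ) : negSub Q ≤ leSub Q := by
  intro γ h
  rcases mem_negSub.1 h with rfl | h
  · exact AddSubmonoid.zero_mem _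
  · exact mem_leSub.2 h.le

theorem supp_mono {S T : AddSubmonoid (Fin r →₀ ℕ)} (h : S ≤ T) :
    supp (B := B) S ≤ supp (B := B) T := fun _ hf γ hγ => h (hf γ hγ)

theorem IsTriple.isPosPart {g gp g0 gm : QSeries B} {Q : Fin r → ℤ}
    (h : IsTriple g gp g0 gm Q) : IsPosPart g gp Q := by
  refine isPosPart_iff.2 ⟨h.gp_zero, h.gp_mem, g0 * gm, ?_, by rw [← mul_assoc]; exact h.eq⟩
  exact mul_mem (supp_mono (zeroSub_le_leSub Q) h.g0_mem) (supp_mono (negSub_le_leSub Q) h.gm_mem)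

theorem exists_isTriple {g : QSeries B} (h0 : g 0 = 1) (Q : Fin r → ℤ) :
    ∃ gp g0 gm, IsTriple g gp g0 gm Q := by
  obtain ⟨gp, gl, h1, h2, h3, h4, h5⟩ := exists_factor (pos_le_disj Q) (pos_or_le Q) g h0
  have hd : ∀ γ, γ ∈ geSub Q → γ ∈ negSub Q → γ = 0 := by
    intro γ ha hb
    rcases mem_negSub.1 hb with h | h
    · exact h
    · exact absurd (mem_geSub.1 ha) (not_le.2 h)
  have hu : ∀ γ, γ ∈ geSub Q ∨ γ ∈ negSub Q := by
    intro γ
    by_cases h : 0 ≤ wt Q γ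
    · exact Or.inl h
    · exact Or.inr (Or.inr (not_le.1 h))
  obtain ⟨g0, gm, k1, k2, k3, k4, k5⟩ := exists_factor hd hu gl h2
  refine ⟨gp, g0, gm, isTriple_iff.2 ⟨h1, h3, k1, ?_, k2, k4, by rw [mul_assoc, ← k5]; exact h5⟩⟩
  have h6 : g0 ∈ supp (B := B) (leSub Q) :=
    (factor_mem (P := {γ | γ ∈ geSub Q}) (L := {γ | γ ∈ negSub Q}) hd k1 k2 k3 k4 (k5 ▸ h4)).1
  intro γ hγ
  exact le_antisymm (mem_leSub.1 (h6 γ hγ)) (mem_geSub.1 (k3 γ hγ))

/-- Truncated uniqueness, most general form: the support conditions are only needed below `γ`. -/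
theorem triple_agree {gp g0 gm gp' g0' gm' : QSeries B} (Q : Fin r → ℤ) (γ : Fin r →₀ ℕ)
    (h1 : gp 0 = 1) (h2 : g0 0 = 1) (h3 : gm 0 = 1)
    (h1' : gp' 0 = 1) (h2' : g0' 0 = 1) (h3' : gm' 0 = 1)
    (hp : ∀ δ, δ ≤ γ → δ ≠ 0 → gp δ ≠ 0 → 0 < wt Q δ)
    (h0 : ∀ δ, δ ≤ γ → g0 δ ≠ 0 → wt Q δ = 0)
    (hm : ∀ δ, δ ≤ γ → δ ≠ 0 → gm δ ≠ 0 → wt Q δ < 0)
    (hp' : ∀ δ, δ ≤ γ → δ ≠ 0 → gp' δ ≠ 0 → 0 < wt Q δ)
    (h0' : ∀ δ, δ ≤ γ → g0' δ ≠ 0 → wt Q δ = 0)
    (hm' : ∀ δ, δ ≤ γ → δ ≠ 0 → gm' δ ≠ 0 → wt Q δ < 0)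
    (h : Agree γ (gp * g0 * gm) (gp' * g0' * gm')) :
    Agree γ gp gp' ∧ Agree γ g0 g0' ∧ Agree γ gm gm' := by
  have aux : ∀ a b : QSeries B, (∀ δ, δ ≤ γ → a δ ≠ 0 → wt Q δ = 0) →
      (∀ δ, δ ≤ γ → δ ≠ 0 → b δ ≠ 0 → wt Q δ < 0) →
      ∀ δ, δ ≤ γ → (a * b) δ ≠ 0 → δ ∈ {δ | wt Q δ ≤ 0} := by
    intro a b ha hb δ hδ hne
    by_contra hc
    apply hne
    apply QSeries.mul_apply_eq_zero
    intro x y hxy
    by_contra hn
    push Not at hn
    apply hc
    have e1 := ha x ((hxy ▸ le_self_add).trans hδ) hn.1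
    show wt Q δ ≤ 0
    rw [← hxy, wt_add, e1, zero_add]
    by_cases hy : y = 0
    · rw [hy, wt_zero]
    · exact (hb y ((hxy ▸ le_add_self).trans hδ) hy hn.2).le
  rw [mul_assoc, mul_assoc] at h
  obtain ⟨k1, k2⟩ := factor_agree (P := {δ | δ = 0 ∨ 0 < wt Q δ}) (L := {δ | wt Q δ ≤ 0}) γ
    (by
      rintro δ - (ha | ha) hb
      · exact ha
      · exact absurd ha (not_lt.2 hb))
    h1 h1' (by rw [mul_zero_apply, h2, h3, one_mul]) (by rw [mul_zero_apply, h2', h3', one_mul])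
    (fun δ hδ hne => by
      by_cases hz : δ = 0
      · exact Or.inl hz
      · exact Or.inr (hp δ hδ hz hne))
    (fun δ hδ hne => by
      by_cases hz : δ = 0
      · exact Or.inl hz
      · exact Or.inr (hp' δ hδ hz hne))
    (aux g0 gm h0 hm) (aux g0' gm' h0' hm') h
  obtain ⟨k3, k4⟩ := factor_agree (P := {δ | wt Q δ = 0}) (L := {δ | δ = 0 ∨ wt Q δ < 0}) γ
    (by
      rintro δ - ha (hb | hb)
      · exact hb
      · exact absurd ha hb.ne)
    h2 h2' h3 h3' h0 h0'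
    (fun δ hδ hne => by
      by_cases hz : δ = 0
      · exact Or.inl hz
      · exact Or.inr (hm δ hδ hz hne))
    (fun δ hδ hne => by
      by_cases hz : δ = 0
      · exact Or.inl hz
      · exact Or.inr (hm' δ hδ hz hne)) k2
  exact ⟨k1, k3, k4⟩

/-- The signs of the two forms agree at `δ`. -/
def SameSign (Q Q' : Fin r → ℤ) (δ : Fin r →₀ ℕ) : Prop :=
  (0 < wt Q δ ↔ 0 < wt Q' δ) ∧ (wt Q δ < 0 ↔ wt Q' δ < 0)

theorem SameSign.eq_zero {Q Q' : Fin r → ℤ} {δ : Fin r →₀ ℕ} (h : SameSign Q Q' δ) :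
    wt Q δ = 0 ↔ wt Q' δ = 0 := by
  obtain ⟨h1, h2⟩ := h
  omega

/-- Truncated uniqueness for triples: `g`, `g'` agree below `γ` and the signs of `Q`, `Q'` agree
below `γ`. -/
theorem IsTriple.congr {g g' gp g0 gm gp' g0' gm' : QSeries B} {Q Q' : Fin r → ℤ}
    (h : IsTriple g gp g0 gm Q) (h' : IsTriple g' gp' g0' gm' Q') (γ : Fin r →₀ ℕ)
    (hg : Agree γ g g') (hQ : ∀ δ, δ ≤ γ → SameSign Q Q' δ) :
    Agree γ gp gp' ∧ Agree γ g0 g0' ∧ Agree γ gm gm' :=
  triple_agree Q γ h.gp_zero h.g0_zero h.gm_zero h'.gp_zero h'.g0_zero h'.gm_zero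
    (fun δ _ => h.gp_supp δ) (fun δ _ => h.g0_supp δ) (fun δ _ => h.gm_supp δ)
    (fun δ hδ hz hne => (hQ δ hδ).1.2 (h'.gp_supp δ hz hne))
    (fun δ hδ hne => (hQ δ hδ).eq_zero.2 (h'.g0_supp δ hne))
    (fun δ hδ hz hne => (hQ δ hδ).2.2 (h'.gm_supp δ hz hne))
    (by rw [← h.eq, ← h'.eq]; exact hg)

theorem IsTriple.unique {g gp g0 gm gp' g0' gm' : QSeries B} {Q : Fin r → ℤ}
    (h : IsTriple g gp g0 gm Q) (h' : IsTriple g gp' g0' gm' Q) :
    gp = gp' ∧ g0 = g0' ∧ gm = gm' := by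
  have key := fun γ => h.congr h' γ (fun _ _ => rfl) (fun _ _ => ⟨Iff.rfl, Iff.rfl⟩)
  exact ⟨QSeries.ext fun γ => (key γ).1 γ le_rfl, QSeries.ext fun γ => (key γ).2.1 γ le_rfl,
    QSeries.ext fun γ => (key γ).2.2 γ le_rfl⟩

/-- Truncated uniqueness up to degree `D`. -/
theorem IsTriple.congr_deg {g g' gp g0 gm gp' g0' gm' : QSeries B} {Q Q' : Fin r → ℤ}
    (h : IsTriple g gp g0 gm Q) (h' : IsTriple g' gp' g0' gm' Q') (D : ℕ)
    (hg : ∀ δ, deg δ ≤ D → g δ = g' δ) (hQ : ∀ δ, deg δ ≤ D → SameSign Q Q' δ) (γ : Fin r →₀ ℕ)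
    (hγ : deg γ ≤ D) : gp γ = gp' γ ∧ g0 γ = g0' γ ∧ gm γ = gm' γ := by
  obtain ⟨h1, h2, h3⟩ := h.congr h' γ (fun δ hδ => hg δ ((deg_mono hδ).trans hγ))
    (fun δ hδ => hQ δ ((deg_mono hδ).trans hγ))
  exact ⟨h1 γ le_rfl, h2 γ le_rfl, h3 γ le_rfl⟩

/-- The factors of a series supported on a submonoid are supported there. -/
theorem IsTriple.mem_supp {g gp g0 gm : QSeries B} {Q : Fin r → ℤ} (h : IsTriple g gp g0 gm Q)
    {S : AddSubmonoid (Fin r →₀ ℕ)} (hS : g ∈ supp (B := B) S) :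
    gp ∈ supp (B := B) S ∧ g0 ∈ supp (B := B) S ∧ gm ∈ supp (B := B) S := by
  have h1 : g = gp * (g0 * gm) := by rw [← mul_assoc]; exact h.eq
  have k := factor_mem (P := {γ | γ ∈ posSub Q}) (L := {γ | γ ∈ leSub Q}) (pos_le_disj Q)
    h.gp_zero (by rw [mul_zero_apply, h.g0_zero, h.gm_zero, one_mul]) h.gp_mem
    (mul_mem (supp_mono (zeroSub_le_leSub Q) h.g0_mem) (supp_mono (negSub_le_leSub Q) h.gm_mem))
    (S := S) (h1 ▸ hS)
  have k' := factor_mem (P := {γ | γ ∈ zeroSub Q}) (L := {γ | γ ∈ negSub Q})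
    (by
      intro γ ha hb
      rcases mem_negSub.1 hb with hb | hb
      · exact hb
      · exact absurd (mem_zeroSub.1 ha) hb.ne)
    h.g0_zero h.gm_zero h.g0_mem h.gm_mem (S := S) k.2
  exact ⟨k.1, k'.1, k'.2⟩

/-- Refinement: if `Q'` is a perturbation of `Q` (below `γ`), then the factorization of `g` for
`Q'` is obtained by factoring `g0`. -/
theorem IsTriple.refine {g gp g0 gm a b c gp' g0' gm' : QSeries B} {Q Q' : Fin r → ℤ}
    (h : IsTriple g gp g0 gm Q) (h' : IsTriple g0 a b c Q') (h'' : IsTriple g gp' g0' gm' Q')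
    (γ : Fin r →₀ ℕ) (h1 : ∀ δ, δ ≤ γ → 0 < wt Q δ → 0 < wt Q' δ)
    (h2 : ∀ δ, δ ≤ γ → wt Q δ < 0 → wt Q' δ < 0) :
    Agree γ gp' (gp * a) ∧ Agree γ g0' b ∧ Agree γ gm' (c * gm) := by
  refine triple_agree Q' γ h''.gp_zero h''.g0_zero h''.gm_zero
    (by rw [mul_zero_apply, h.gp_zero, h'.gp_zero, one_mul]) h'.g0_zero
    (by rw [mul_zero_apply, h.gm_zero, h'.gm_zero, one_mul])
    (fun δ _ => h''.gp_supp δ) (fun δ _ => h''.g0_supp δ) (fun δ _ => h''.gm_supp δ)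
    ?_ (fun δ _ => h'.g0_supp δ) ?_ ?_
  · intro δ hδ hz hne
    by_contra hc
    apply hne
    apply QSeries.mul_apply_eq_zero
    intro x y hxy
    by_contra hn
    push Not at hn
    apply hc
    have hx : x = 0 ∨ 0 < wt Q' x := by
      by_cases hx : x = 0
      · exact Or.inl hx
      · exact Or.inr (h1 x ((hxy ▸ le_self_add).trans hδ) (h.gp_supp x hx hn.1))
    have hy : y = 0 ∨ 0 < wt Q' y := by
      by_cases hy : y = 0
      · exact Or.inl hy
      · exact Or.inr (h'.gp_supp y hy hn.2)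
    rw [← hxy, wt_add]
    rcases hx with rfl | hx <;> rcases hy with rfl | hy
    · exact absurd (by rw [← hxy, add_zero]) hz
    · simpa using hy
    · simpa using hx
    · exact add_pos hx hy
  · intro δ hδ hz hne
    by_contra hc
    apply hne
    apply QSeries.mul_apply_eq_zero
    intro x y hxy
    by_contra hn
    push Not at hn
    apply hc
    have hx : x = 0 ∨ wt Q' x < 0 := by
      by_cases hx : x = 0
      · exact Or.inl hx
      · exact Or.inr (h'.gm_supp x hx hn.1)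
    have hy : y = 0 ∨ wt Q' y < 0 := by
      by_cases hy : y = 0
      · exact Or.inl hy
      · exact Or.inr (h2 y ((hxy ▸ le_add_self).trans hδ) (h.gm_supp y hy hn.2))
    rw [← hxy, wt_add]
    rcases hx with rfl | hx <;> rcases hy with rfl | hy
    · exact absurd (by rw [← hxy, add_zero]) hz
    · simpa using hy
    · simpa using hx
    · exact add_neg hx hy
  · have e : gp' * g0' * gm' = gp * a * b * (c * gm) := by
      rw [← h''.eq, h.eq, h'.eq]
      simp only [mul_assoc]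
    rw [e]
    exact Agree.rfl'

/-- Exact refinement. -/
theorem IsTriple.refine' {g gp g0 gm a b c : QSeries B} {Q Q' : Fin r → ℤ}
    (h : IsTriple g gp g0 gm Q) (h' : IsTriple g0 a b c Q')
    (h1 : ∀ δ, 0 < wt Q δ → 0 < wt Q' δ) (h2 : ∀ δ, wt Q δ < 0 → wt Q' δ < 0) :
    IsTriple g (gp * a) b (c * gm) Q' := by
  obtain ⟨gp', g0', gm', h''⟩ := exists_isTriple h.g_zero Q'
  have key := fun γ => h.refine h' h'' γ (fun δ _ => h1 δ) (fun δ _ => h2 δ)
  have e1 : gp' = gp * a := QSeries.ext fun γ => (key γ).1 γ le_rfl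
  have e2 : g0' = b := QSeries.ext fun γ => (key γ).2.1 γ le_rfl
  have e3 : gm' = c * gm := QSeries.ext fun γ => (key γ).2.2 γ le_rfl
  rw [← e1, ← e2, ← e3]
  exact h''

/-- The triple of the inverse element. -/
theorem IsTriple.inverse {g gp g0 gm : QSeries B} {Q : Fin r → ℤ} (h : IsTriple g gp g0 gm Q) :
    IsTriple (Ring.inverse g) (Ring.inverse gm) (Ring.inverse g0) (Ring.inverse gp) (-Q) := by
  have up := isUnit_of_one h.gp_zero
  have u0 := isUnit_of_one h.g0_zero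
  have um := isUnit_of_one h.gm_zero
  have ug := isUnit_of_one h.g_zero
  have hp : posSub (-Q) = negSub Q := by
    ext γ
    rw [mem_posSub, mem_negSub, wt_neg, Left.neg_pos_iff]
  have hn : negSub (-Q) = posSub Q := by
    ext γ
    rw [mem_posSub, mem_negSub, wt_neg, Left.neg_neg_iff]
  have hz : zeroSub (-Q) = zeroSub Q := by
    ext γ
    rw [mem_zeroSub, mem_zeroSub, wt_neg, neg_eq_zero]
  refine isTriple_iff.2 ⟨inverse_zero_apply h.gm_zero, ?_, inverse_zero_apply h.g0_zero, ?_,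
    inverse_zero_apply h.gp_zero, ?_, ?_⟩
  · rw [hp]
    exact inverse_mem_supp h.gm_mem (by rw [h.gm_zero]; exact one_ne_zero)
  · rw [hz]
    exact inverse_mem_supp h.g0_mem (by rw [h.g0_zero]; exact one_ne_zero)
  · rw [hn]
    exact inverse_mem_supp h.gp_mem (by rw [h.gp_zero]; exact one_ne_zero)
  · have e : g * (Ring.inverse gm * Ring.inverse g0 * Ring.inverse gp) = 1 := by
      rw [h.eq]
      calc gp * g0 * gm * (Ring.inverse gm * Ring.inverse g0 * Ring.inverse gp)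
          = gp * g0 * (gm * Ring.inverse gm) * Ring.inverse g0 * Ring.inverse gp := by
            simp only [mul_assoc]
        _ = gp * (g0 * Ring.inverse g0) * Ring.inverse gp := by
            rw [Ring.mul_inverse_cancel _ um, mul_one]
            simp only [mul_assoc]
        _ = 1 := by rw [Ring.mul_inverse_cancel _ u0, mul_one, Ring.mul_inverse_cancel _ up]
    calc Ring.inverse g = Ring.inverse g * (g *
          (Ring.inverse gm * Ring.inverse g0 * Ring.inverse gp)) := by rw [e, mul_one]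
      _ = _ := by rw [← mul_assoc, Ring.inverse_mul_cancel _ ug, one_mul]

/-! ### the parts as functions -/

/-- `g_0`, for `g 0 = 1` (otherwise `1`). -/
def zeroPart (g : QSeries B) (Q : Fin r → ℤ) : QSeries B := by
  classical
  exact if h : g 0 = 1 then
    Classical.choose (Classical.choose_spec (exists_isTriple h Q)) else 1

/-- `g_{<}`, for `g 0 = 1` (otherwise `1`). -/
def negPart (g : QSeries B) (Q : Fin r → ℤ) : QSeries B := by
  classical
  exact if h : g 0 = 1 then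
    Classical.choose (Classical.choose_spec (Classical.choose_spec (exists_isTriple h Q))) else 1

theorem triple_spec {g : QSeries B} (h : g 0 = 1) (Q : Fin r → ℤ) :
    IsTriple g (posPart g Q) (zeroPart g Q) (negPart g Q) Q := by
  have h1 := Classical.choose_spec (Classical.choose_spec (Classical.choose_spec
    (exists_isTriple h Q)))
  have h2 := h1.isPosPart.eq_posPart h
  unfold zeroPart negPart
  rw [dif_pos h, dif_pos h, ← h2]
  exact h1

theorem IsTriple.eq_parts {g gp g0 gm : QSeries B} {Q : Fin r → ℤ} (h : IsTriple g gp g0 gm Q) :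
    gp = posPart g Q ∧ g0 = zeroPart g Q ∧ gm = negPart g Q :=
  h.unique (triple_spec h.g_zero Q)

end

end Vale.Agent.P066.Theta
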